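import Mathlib

/-! Lattice cones: refinement, common atoms, and selection of continuous linear maps. -/

set_option linter.all false

namespace Vale.Agent.N070X

open Finset

variable {V : Type*} [AddCommGroup V] [Module ℝ V]

/-- the cone over `B` -/
def cn (B : Set V) : Set V := {p | ∃ t : ℝ, 0 ≤ t ∧ ∃ b ∈ B, p = t • b}

/-- algebraic part of the hypotheses -/
structure Lat (B : Set V) (h : V →ₗ[ℝ] ℝ) : Prop where
  conv : Convex ℝ B
  ne : B.Nonempty
  one : ∀ b ∈ B, h b = 1
  lub : ∀ p ∈ cn B, ∀ q ∈ cn B, ∃ r, r - p ∈ cn B ∧ r - q ∈ cn B ∧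
    ∀ s, s - p ∈ cn B → s - q ∈ cn B → s - r ∈ cn B

variable {B : Set V} {h : V →ₗ[ℝ] ℝ}

theorem mem_cn {b : V} (hb : b ∈ B) : b ∈ cn B := ⟨1, zero_le_one, b, hb, (one_smul _ _).symm⟩

theorem cn_smul {p : V} (hp : p ∈ cn B) {c : ℝ} (hc : 0 ≤ c) : c • p ∈ cn B := by
  obtain ⟨t, ht, b, hb, rfl⟩ := hp
  exact ⟨c * t, mul_nonneg hc ht, b, hb, smul_smul _ _ _⟩

theorem Lat.zero (H : Lat B h) : (0 : V) ∈ cn B := by
  obtain ⟨b, hb⟩ := H.ne
  exact ⟨0, le_rfl, b, hb, (zero_smul _ _).symm⟩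

theorem Lat.add (H : Lat B h) {p q : V} (hp : p ∈ cn B) (hq : q ∈ cn B) : p + q ∈ cn B := by
  obtain ⟨t, ht, b, hb, rfl⟩ := hp
  obtain ⟨s, hs, c, hc, rfl⟩ := hq
  rcases (add_nonneg ht hs).eq_or_lt with h0 | h0
  · have h1 : t = 0 := by linarith
    have h2 : s = 0 := by linarith
    rw [h1, h2, zero_smul, zero_smul, add_zero]; exact H.zero
  · refine ⟨t + s, h0.le, (t / (t + s)) • b + (s / (t + s)) • c,
      H.conv hb hc (by positivity) (by positivity) (by field_simp), ?_⟩
    rw [smul_add, smul_smul, smul_smul, mul_div_cancel₀ _ h0.ne', mul_div_cancel₀ _ h0.ne']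

theorem Lat.sum (H : Lat B h) {ι : Type*} (s : Finset ι) {p : ι → V} (hp : ∀ i ∈ s, p i ∈ cn B) :
    ∑ i ∈ s, p i ∈ cn B :=
  Finset.sum_induction p (· ∈ cn B) (fun _ _ => H.add) H.zero hp

theorem Lat.nonneg (H : Lat B h) {p : V} (hp : p ∈ cn B) : 0 ≤ h p := by
  obtain ⟨t, ht, b, hb, rfl⟩ := hp
  rw [map_smul, H.one b hb, smul_eq_mul, mul_one]; exact ht

theorem Lat.eq_zero (H : Lat B h) {p : V} (hp : p ∈ cn B) (h0 : h p = 0) : p = 0 := by
  obtain ⟨t, ht, b, hb, rfl⟩ := hp
  rw [map_smul, H.one b hb, smul_eq_mul, mul_one] at h0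
  rw [h0, zero_smul]

theorem Lat.pointed (H : Lat B h) {p q : V} (hp : p ∈ cn B) (hq : q ∈ cn B) (h0 : p + q = 0) :
    p = 0 := by
  have h1 := congrArg h h0
  rw [map_add, map_zero] at h1
  exact H.eq_zero hp (by linarith [H.nonneg hp, H.nonneg hq])

theorem Lat.terms_zero (H : Lat B h) {ι : Type*} {s : Finset ι} {p : ι → V}
    (hp : ∀ i ∈ s, p i ∈ cn B) (h0 : ∑ i ∈ s, p i = 0) : ∀ i ∈ s, p i = 0 := by
  intro i hi
  have h1 := congrArg h h0
  rw [map_sum, map_zero, Finset.sum_eq_zero_iff_of_nonneg fun j hj => H.nonneg (hp j hj)] at h1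
  exact H.eq_zero (hp i hi) (h1 i hi)

theorem Lat.two (H : Lat B h) {a a' b b' : V} (ha : a ∈ cn B) (ha' : a' ∈ cn B) (hb : b ∈ cn B)
    (hb' : b' ∈ cn B) (e : a + a' = b + b') :
    ∃ c, c ∈ cn B ∧ a - c ∈ cn B ∧ b - c ∈ cn B ∧ a' - (b - c) ∈ cn B := by
  obtain ⟨r, h1, h2, h3⟩ := H.lub a ha b hb
  refine ⟨a + b - r, h3 _ (by simpa using hb) (by simpa using ha), ?_, ?_, ?_⟩
  · convert h2 using 1; abel
  · convert h1 using 1; abel
  · have := h3 (a + a') (by simpa using ha') (by rw [e]; simpa using hb')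
    convert this using 1; abel

theorem Lat.row (H : Lat B h) {κ : Type*} [DecidableEq κ] (s : Finset κ) {b : κ → V}
    (hb : ∀ k ∈ s, b k ∈ cn B) : ∀ {a a' : V}, a ∈ cn B → a' ∈ cn B → a + a' = ∑ k ∈ s, b k →
    ∃ c : κ → V, (∀ k, c k ∈ cn B) ∧ (∀ k ∈ s, b k - c k ∈ cn B) ∧ ∑ k ∈ s, c k = a := by
  induction s using Finset.induction_on with
  | empty =>
    intro a a' ha ha' e
    exact ⟨fun _ => 0, fun _ => H.zero, by simp, by
      rw [Finset.sum_empty] at e ⊢; exact (H.pointed ha ha' e).symm⟩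
  | insert k0 s hk0 ih =>
    intro a a' ha ha' e
    rw [Finset.sum_insert hk0] at e
    have hb0 := hb k0 (Finset.mem_insert_self _ _)
    have hbs : ∀ k ∈ s, b k ∈ cn B := fun k hk => hb k (Finset.mem_insert_of_mem hk)
    obtain ⟨c0, h1, h2, h3, h4⟩ := H.two ha ha' hb0 (H.sum s hbs) e
    obtain ⟨c, hc1, hc2, hc3⟩ := ih hbs h2 h4 (by rw [← sub_eq_iff_eq_add'] at e; rw [← e]; abel)
    refine ⟨Function.update c k0 c0, fun k => ?_, fun k hk => ?_, ?_⟩
    · by_cases hk : k = k0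
      · rw [hk, Function.update_self]; exact h1
      · rw [Function.update_of_ne hk]; exact hc1 k
    · by_cases hk' : k = k0
      · rw [hk', Function.update_self]; exact h3
      · rw [Function.update_of_ne hk']
        exact hc2 k ((Finset.mem_insert.1 hk).resolve_left hk')
    · rw [Finset.sum_insert hk0, Function.update_self, Finset.sum_update_of_notMem hk0, hc3]
      abel

theorem Lat.refine (H : Lat B h) {ι κ : Type*} [DecidableEq ι] [DecidableEq κ] (s : Finset κ)
    (t : Finset ι) {a : ι → V} (ha : ∀ l ∈ t, a l ∈ cn B) : ∀ {b : κ → V},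
    (∀ k ∈ s, b k ∈ cn B) → ∑ l ∈ t, a l = ∑ k ∈ s, b k →
    ∃ z : ι → κ → V, (∀ l k, z l k ∈ cn B) ∧ (∀ l ∈ t, ∑ k ∈ s, z l k = a l) ∧
      ∀ k ∈ s, ∑ l ∈ t, z l k = b k := by
  induction t using Finset.induction_on with
  | empty =>
    intro b hb e
    refine ⟨fun _ _ => 0, fun _ _ => H.zero, by simp, fun k hk => ?_⟩
    rw [Finset.sum_empty] at e ⊢
    exact (H.terms_zero hb e.symm k hk).symm
  | insert l0 t hl0 ih =>
    intro b hb e
    rw [Finset.sum_insert hl0] at e
    have ha0 := ha l0 (Finset.mem_insert_self _ _)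
    have hat : ∀ l ∈ t, a l ∈ cn B := fun l hl => ha l (Finset.mem_insert_of_mem hl)
    obtain ⟨c, hc1, hc2, hc3⟩ := H.row s hb ha0 (H.sum t hat) e
    obtain ⟨z, hz1, hz2, hz3⟩ := ih hat (b := fun k => b k - c k) hc2 (by
      rw [Finset.sum_sub_distrib, hc3, ← e]; abel)
    refine ⟨Function.update z l0 c, fun l k => ?_, fun l hl => ?_, fun k hk => ?_⟩
    · by_cases hl : l = l0
      · rw [hl, Function.update_self]; exact hc1 k
      · rw [Function.update_of_ne hl]; exact hz1 l k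
    · by_cases hl' : l = l0
      · rw [hl', Function.update_self]; exact hc3
      · rw [Function.update_of_ne hl']
        exact hz2 l ((Finset.mem_insert.1 hl).resolve_left hl')
    · rw [Finset.sum_insert hl0, Function.update_self]
      have : ∑ l ∈ t, Function.update z l0 c l k = ∑ l ∈ t, z l k :=
        Finset.sum_congr rfl fun l hl => by
          rw [Function.update_of_ne (fun e' : l = l0 => hl0 (e' ▸ hl))]
      rw [this, hz3 k hk]; abel

/-- common atoms for one relation -/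
theorem Lat.shen1 (H : Lat B h) {L : Type} [Fintype L] {p : L → V} (hp : ∀ l, p l ∈ cn B)
    (α : L → ℝ) (hα : ∑ l, α l • p l = 0) :
    ∃ (T : Type) (_ : Fintype T) (q : T → V) (γ : L → T → ℝ), (∀ t, q t ∈ cn B) ∧
      (∀ l t, 0 ≤ γ l t) ∧ (∀ l, p l = ∑ t, γ l t • q t) ∧ ∀ t, ∑ l, α l * γ l t = 0 := by
  classical
  obtain ⟨z, hz1, hz2, hz3⟩ := H.refine (univ.filter fun l => α l < 0)
    (univ.filter fun l => 0 < α l) (a := fun l => α l • p l)
    (fun l hl => cn_smul (hp l) (mem_filter.1 hl).2.le) (b := fun l => (-α l) • p l)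
    (fun l hl => cn_smul (hp l) (neg_nonneg.2 (mem_filter.1 hl).2.le)) (by
      rw [← sub_eq_zero, ← hα, sum_filter, sum_filter, ← sum_sub_distrib]
      refine sum_congr rfl fun l _ => ?_
      rcases lt_trichotomy (α l) 0 with h1 | h1 | h1
      · rw [if_neg h1.not_gt, if_pos h1, neg_smul, zero_sub, neg_neg]
      · simp [h1]
      · rw [if_pos h1, if_neg h1.not_gt, sub_zero])
  refine ⟨({a // 0 < α a} × {b // α b < 0}) ⊕ {m // α m = 0}, inferInstance,
    Sum.elim (fun x => z x.1 x.2) (fun m => p m),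
    fun l => Sum.elim (fun x => (if l = x.1 then (α l)⁻¹ else 0) + (if l = x.2 then (-α l)⁻¹ else 0))
      (fun m => if l = m then 1 else 0), ?_, ?_, ?_, ?_⟩
  · rintro (x | m)
    · exact hz1 _ _
    · exact hp _
  · rintro l (⟨a, b⟩ | m)
    · refine add_nonneg ?_ ?_
      · split_ifs with e
        · rw [e]; exact inv_nonneg.2 a.2.le
        · exact le_rfl
      · split_ifs with e
        · rw [e]; exact inv_nonneg.2 (neg_nonneg.2 b.2.le)
        · exact le_rfl
    · show 0 ≤ (if l = m then (1 : ℝ) else 0)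
      split_ifs <;> norm_num
  · intro l
    rw [Fintype.sum_sum_type, Fintype.sum_prod_type]
    simp only [Sum.elim_inl, Sum.elim_inr, add_smul, sum_add_distrib, ite_smul, zero_smul, one_smul]
    rcases lt_trichotomy (α l) 0 with h1 | h1 | h1
    · have e1 : ∑ a : {a // 0 < α a}, ∑ b : {b // α b < 0},
          (if l = a then (α l)⁻¹ • z a b else 0) = 0 :=
        sum_eq_zero fun (a : {a // 0 < α a}) _ => sum_eq_zero fun (b : {b // α b < 0}) _ => if_neg fun e : l = a.1 => h1.not_gt (e ▸ a.2)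
      have e3 : ∑ m : {m // α m = 0}, (if l = m then p m else 0) = 0 :=
        sum_eq_zero fun (m : {m // α m = 0}) _ => if_neg fun e : l = m.1 => h1.ne (e ▸ m.2)
      have e2 : ∑ a : {a // 0 < α a}, ∑ b : {b // α b < 0},
          (if l = b then (-α l)⁻¹ • z a b else 0) = ∑ a : {a // 0 < α a}, (-α l)⁻¹ • z a l :=
        sum_congr rfl fun a _ => by
          rw [sum_eq_single (⟨l, h1⟩ : {b // α b < 0}) (fun b _ hb => if_neg fun e =>
            hb (Subtype.ext e.symm)) (by simp), if_pos rfl]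
      rw [e1, e2, e3, zero_add, add_zero, ← smul_sum,
        ← sum_subtype (univ.filter fun l => 0 < α l) (by simp) (fun a => z a l),
        hz3 l (by simpa using h1), smul_smul, inv_mul_cancel₀ (by linarith), one_smul]
    · have e1 : ∑ a : {a // 0 < α a}, ∑ b : {b // α b < 0},
          (if l = a then (α l)⁻¹ • z a b else 0) = 0 :=
        sum_eq_zero fun (a : {a // 0 < α a}) _ => sum_eq_zero fun (b : {b // α b < 0}) _ => if_neg fun e : l = a.1 => h1.not_gt (e ▸ a.2)
      have e2 : ∑ a : {a // 0 < α a}, ∑ b : {b // α b < 0},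
          (if l = b then (-α l)⁻¹ • z a b else 0) = 0 :=
        sum_eq_zero fun (a : {a // 0 < α a}) _ => sum_eq_zero fun (b : {b // α b < 0}) _ => if_neg fun e : l = b.1 => h1.not_lt (e ▸ b.2)
      rw [e1, e2, zero_add, zero_add, sum_eq_single (⟨l, h1⟩ : {m // α m = 0})
        (fun b _ hb => if_neg fun e => hb (Subtype.ext e.symm)) (by simp), if_pos rfl]
    · have e2 : ∑ a : {a // 0 < α a}, ∑ b : {b // α b < 0},
          (if l = b then (-α l)⁻¹ • z a b else 0) = 0 :=
        sum_eq_zero fun (a : {a // 0 < α a}) _ => sum_eq_zero fun (b : {b // α b < 0}) _ => if_neg fun e : l = b.1 => h1.not_gt (e ▸ b.2)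
      have e3 : ∑ m : {m // α m = 0}, (if l = m then p m else 0) = 0 :=
        sum_eq_zero fun (m : {m // α m = 0}) _ => if_neg fun e : l = m.1 => h1.ne' (e ▸ m.2)
      rw [e2, e3, add_zero, add_zero, sum_eq_single (⟨l, h1⟩ : {a // 0 < α a})
        (fun a _ ha => sum_eq_zero fun b _ => if_neg fun e => ha (Subtype.ext e.symm)) (by simp)]
      simp only [if_true]
      rw [← smul_sum, ← sum_subtype (univ.filter fun l => α l < 0) (by simp) (fun b => z l b),
        hz2 l (by simpa using h1), smul_smul, inv_mul_cancel₀ h1.ne', one_smul]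
  · rintro (⟨a, b⟩ | m)
    · simp only [Sum.elim_inl, mul_add, sum_add_distrib, mul_ite, mul_zero, sum_ite_eq', mem_univ,
        if_true]
      rw [mul_inv_cancel₀ a.2.ne', inv_neg, mul_neg, mul_inv_cancel₀ b.2.ne]; ring
    · simp only [Sum.elim_inr, mul_ite, mul_zero, sum_ite_eq', mem_univ, if_true, mul_one]
      exact m.2

/-- common atoms for finitely many relations -/
theorem Lat.shen (H : Lat B h) {L J : Type} [Fintype L] {p : L → V} (hp : ∀ l, p l ∈ cn B)
    (α : J → L → ℝ) (s : Finset J) (hα : ∀ j ∈ s, ∑ l, α j l • p l = 0) :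
    ∃ (T : Type) (_ : Fintype T) (q : T → V) (γ : L → T → ℝ), (∀ t, q t ∈ cn B) ∧
      (∀ l t, 0 ≤ γ l t) ∧ (∀ l, p l = ∑ t, γ l t • q t) ∧
      ∀ j ∈ s, ∀ t, ∑ l, α j l * γ l t = 0 := by
  classical
  induction s using Finset.induction_on with
  | empty =>
    refine ⟨L, inferInstance, p, fun l t => if l = t then 1 else 0, hp, fun l t => ?_,
      fun l => by simp, by simp⟩
    show 0 ≤ (if l = t then (1 : ℝ) else 0)
    split_ifs <;> norm_num
  | insert j0 s hj0 ih =>
    obtain ⟨T, _, q, γ, h1, h2, h3, h4⟩ := ih fun j hj => hα j (mem_insert_of_mem hj)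
    obtain ⟨U, _, r, δ, g1, g2, g3, g4⟩ := H.shen1 h1 (fun t => ∑ l, α j0 l * γ l t) (by
      rw [← hα j0 (mem_insert_self _ _)]
      simp only [sum_smul]
      rw [sum_comm]
      refine sum_congr rfl fun l _ => ?_
      rw [h3 l, smul_sum]
      exact sum_congr rfl fun t _ => (smul_smul _ _ _).symm)
    have key : ∀ j u, ∑ l, α j l * ∑ t, γ l t * δ t u = ∑ t, (∑ l, α j l * γ l t) * δ t u := by
      intro j u
      simp only [mul_sum, sum_mul]
      rw [sum_comm]
      exact sum_congr rfl fun t _ => sum_congr rfl fun l _ => (mul_assoc _ _ _).symm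
    refine ⟨U, inferInstance, r, fun l u => ∑ t, γ l t * δ t u, g1,
      fun l u => sum_nonneg fun t _ => mul_nonneg (h2 l t) (g2 t u), fun l => ?_, fun j hj u => ?_⟩
    · rw [h3 l]
      simp only [sum_smul]
      rw [sum_comm]
      refine sum_congr rfl fun t _ => ?_
      rw [g3 t, smul_sum]
      exact sum_congr rfl fun u _ => smul_smul _ _ _
    · rw [key]
      rcases mem_insert.1 hj with rfl | hj
      · exact g4 u
      · simp [h4 j hj]

end Vale.Agent.N070X
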