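import Mathlib

namespace Vale.Agent.N070X

universe u

/-- The tracial states of `A`, a subset of the dual with the weak* topology. -/
def traces (A : Type) [CStarAlgebra A] : Set (WeakDual ℂ A) :=
  {τ | τ 1 = 1 ∧ (∀ a, ∃ r : ℝ, 0 ≤ r ∧ τ (star a * a) = r) ∧ ∀ a b, τ (a * b) = τ (b * a)}

variable {E : Type u} [AddCommGroup E] [Module ℝ E]

/-- The cone generated by `K × {1}` in `E × ℝ`. -/
def cone (K : Set E) : Set (E × ℝ) := {p | ∃ t : ℝ, 0 ≤ t ∧ ∃ x ∈ K, p = (t • x, t)}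

/-- `K` is a simplex in the sense of Choquet: in the order `p ≤ q ↔ q - p ∈ cone K` any two
elements of the cone have a least upper bound (so `cone K - cone K` is a vector lattice). -/
def IsSimplex (K : Set E) : Prop :=
  ∀ p ∈ cone K, ∀ q ∈ cone K, ∃ r, r - p ∈ cone K ∧ r - q ∈ cone K ∧
    ∀ s, s - p ∈ cone K → s - q ∈ cone K → s - r ∈ cone K

/-- `τ` is an affine homeomorphism of `K` onto the tracial state space of `A`. -/
def IsTraceSpace [TopologicalSpace E] (K : Set E) (A : Type) [CStarAlgebra A]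
    (τ : E → WeakDual ℂ A) : Prop :=
  Topology.IsEmbedding (fun x : K => τ x) ∧ τ '' K = traces A ∧
    ∀ x ∈ K, ∀ y ∈ K, ∀ s t : ℝ, 0 ≤ s → 0 ≤ t → s + t = 1 →
      τ (s • x + t • y) = (s : ℂ) • τ x + (t : ℂ) • τ y

end Vale.Agent.N070X
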