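import Mathlib
import Vale.Agent.N070.Main

/-! The positive part of a bounded hermitian tracial functional. -/

set_option linter.all false

namespace Vale.Agent.N070X

open scoped ComplexOrder
open Filter Topology Vale.Agent.P070

section
variable {A : Type*} [CStarAlgebra A] [PartialOrder A] [StarOrderedRing A]

/-- positive functionals -/
def Pos (φ : A →ₗ[ℂ] ℂ) : Prop := ∀ a, 0 ≤ a → 0 ≤ φ a

theorem pos_of_unit {φ : A →ₗ[ℂ] ℂ} (h : ∀ a, 0 ≤ a → a ≤ 1 → 0 ≤ φ a) : Pos φ := by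
  intro a ha
  have hr : 0 < ‖a‖ + 1 := by positivity
  have h0 : 0 ≤ (‖a‖ + 1)⁻¹ • a := smul_nonneg (by positivity) ha
  have h1 := h _ h0 ((CStarAlgebra.norm_le_one_iff_of_nonneg _ h0).1 (by
    rw [norm_smul, Real.norm_of_nonneg (by positivity), inv_mul_le_iff₀ hr]; linarith))
  have h2 : φ a = ((‖a‖ + 1 : ℝ) : ℂ) * φ ((‖a‖ + 1)⁻¹ • a) := by
    rw [← smul_eq_mul, ← map_smul, Complex.coe_smul, smul_smul, mul_inv_cancel₀ hr.ne', one_smul]
  rw [h2]
  exact mul_nonneg (Complex.zero_le_real.2 hr.le) h1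

theorem Pos.eq_zero {φ : A →ₗ[ℂ] ℂ} (h : Pos φ) (h1 : φ 1 = 0) : φ = 0 := by
  have h2 : Pos (-φ) := pos_of_unit fun a _ ha => by
    have := h (1 - a) (sub_nonneg.2 ha)
    rwa [map_sub, h1, zero_sub] at this
  refine LinearMap.ext_on CStarAlgebra.span_nonneg fun a ha => ?_
  exact le_antisymm (neg_nonneg.1 (h2 a ha)) (h a ha)

theorem exists_posPart (ρ : A →ₗ[ℂ] ℂ) {c : ℝ} (hc : ∀ a, ‖ρ a‖ ≤ c * ‖a‖)
    (him : ∀ a, 0 ≤ a → (ρ a).im = 0) (htr : ∀ a b, ρ (a * b) = ρ (b * a)) :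
    ∃ π : A →ₗ[ℂ] ℂ, Pos π ∧ Pos (π - ρ) ∧ (∀ a b, π (a * b) = π (b * a)) ∧
      ∀ s : A →ₗ[ℂ] ℂ, Pos s → Pos (s - ρ) → Pos (s - π) := by
  let S : Set ℝ := (fun e => (ρ e).re) '' Set.Icc 0 1
  have hn : ∀ e ∈ Set.Icc (0 : A) 1, ‖e‖ ≤ 1 := fun e he =>
    (CStarAlgebra.norm_le_one_iff_of_nonneg _ he.1).2 he.2
  have hS : BddAbove S := ⟨|c|, by
    rintro _ ⟨e, he, rfl⟩
    refine ((Complex.re_le_norm _).trans (hc e)).trans ?_
    calc c * ‖e‖ ≤ |c| * 1 := mul_le_mul (le_abs_self c) (hn e he) (norm_nonneg _) (abs_nonneg _)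
      _ = |c| := mul_one _⟩
  have hSne : S.Nonempty := ⟨_, 0, ⟨le_rfl, zero_le_one⟩, rfl⟩
  have hle : ∀ e ∈ Set.Icc (0 : A) 1, (ρ e).re ≤ sSup S := fun e he => le_csSup hS ⟨e, he, rfl⟩
  have hex : ∀ n : ℕ, ∃ e ∈ Set.Icc (0 : A) 1, sSup S - 1 / ((n : ℝ) + 1) < (ρ e).re := by
    intro n
    obtain ⟨_, ⟨e, he, rfl⟩, h1⟩ := exists_lt_of_lt_csSup hSne
      (sub_lt_self (sSup S) (Nat.one_div_pos_of_nat (n := n)))
    exact ⟨e, he, h1⟩
  choose e he hlt using hex
  have hb : ∀ x, Tendsto (fun n => ρ (x * e n)) (hyperfilter ℕ : Filter ℕ)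
      (𝓝 (ulim fun n => ρ (x * e n))) := fun x => tendsto_ulim ⟨|c| * ‖x‖, fun n => by
    refine (hc _).trans (mul_le_mul (le_abs_self c) ?_ (norm_nonneg _) (abs_nonneg _))
    exact (norm_mul_le _ _).trans (mul_le_of_le_one_right (norm_nonneg _) (hn _ (he n)))⟩
  let π : A →ₗ[ℂ] ℂ :=
    { toFun := fun x => ulim fun n => ρ (x * e n)
      map_add' := fun a b => by
        apply ulim_eq
        simp only [add_mul, map_add]
        exact (hb a).add (hb b)
      map_smul' := fun t a => by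
        apply ulim_eq
        simp only [smul_mul_assoc, map_smul, smul_eq_mul, RingHom.id_apply]
        exact (hb a).const_mul t }
  have hπ : ∀ x, Tendsto (fun n => ρ (x * e n)) (hyperfilter ℕ : Filter ℕ) (𝓝 (π x)) := hb
  have hε : Tendsto (fun n : ℕ => ((1 / ((n : ℝ) + 1) : ℝ) : ℂ)) (hyperfilter ℕ : Filter ℕ)
      (𝓝 0) := by
    have := (Complex.continuous_ofReal.tendsto 0).comp tendsto_one_div_add_atTop_nhds_zero_nat
    exact this.mono_left Nat.hyperfilter_le_atTop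
  have conj : ∀ a x : A, 0 ≤ x → ρ (a * x) = ρ (CFC.sqrt x * a * CFC.sqrt x) := by
    intro a x hx
    rw [mul_assoc, htr (CFC.sqrt x), mul_assoc, CFC.sqrt_mul_sqrt_self x hx]
  have cle : ∀ a x : A, a ≤ 1 → 0 ≤ x → CFC.sqrt x * a * CFC.sqrt x ≤ x := by
    intro a x ha hx
    have := conjugate_le_conjugate_of_nonneg ha (CFC.sqrt_nonneg x)
    rwa [mul_one, CFC.sqrt_mul_sqrt_self x hx] at this
  have cnn : ∀ a x : A, 0 ≤ a → 0 ≤ CFC.sqrt x * a * CFC.sqrt x := fun a x ha =>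
    conjugate_nonneg_of_nonneg ha (CFC.sqrt_nonneg x)
  have h1 : Pos π := pos_of_unit fun a ha ha1 => by
    have h2 := (hπ a).add hε
    rw [add_zero] at h2
    refine ge_of_tendsto' h2 fun n => ?_
    have h3 := hle _ ⟨cnn (1 - a) (e n) (sub_nonneg.2 ha1),
      (cle _ _ (sub_le_self 1 ha) (he n).1).trans (he n).2⟩
    rw [← conj _ _ (he n).1, sub_mul, one_mul, map_sub, Complex.sub_re] at h3
    rw [Complex.nonneg_iff, Complex.add_re, Complex.add_im, Complex.ofReal_re, Complex.ofReal_im,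
      add_zero]
    refine ⟨by linarith [hlt n], ?_⟩
    rw [conj _ _ (he n).1, him _ (cnn _ _ ha)]
  have h2 : Pos (π - ρ) := pos_of_unit fun a ha ha1 => by
    have h2 := ((hπ a).sub_const (ρ a)).add hε
    rw [add_zero] at h2
    refine ge_of_tendsto' h2 fun n => ?_
    have h0 : 0 ≤ 1 - e n := sub_nonneg.2 (he n).2
    have h3 := hle (e n + CFC.sqrt (1 - e n) * a * CFC.sqrt (1 - e n))
      ⟨add_nonneg (he n).1 (cnn _ _ ha), le_sub_iff_add_le'.1 (cle _ _ ha1 h0)⟩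
    rw [map_add, ← conj _ _ h0, mul_sub, mul_one, map_sub, Complex.add_re, Complex.sub_re] at h3
    rw [Complex.nonneg_iff, Complex.add_re, Complex.add_im, Complex.ofReal_re, Complex.ofReal_im,
      add_zero, Complex.sub_re, Complex.sub_im]
    refine ⟨by linarith [hlt n], ?_⟩
    rw [conj _ _ (he n).1, him _ (cnn _ _ ha), him _ ha, sub_zero]
  have h3 : ∀ s : A →ₗ[ℂ] ℂ, Pos s → Pos (s - ρ) → Pos (s - π) := by
    intro s hs hsρ a ha
    refine ge_of_tendsto' ((hπ a).const_sub (s a)) fun n => ?_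
    have h4 := hs _ (cnn (1 - e n) a (sub_nonneg.2 (he n).2))
    have h5 := hsρ _ (cnn (e n) a (he n).1)
    rw [mul_sub, sub_mul, mul_one, CFC.sqrt_mul_sqrt_self a ha, map_sub] at h4
    rw [LinearMap.sub_apply, ← conj _ _ ha, htr] at h5
    have h6 := add_nonneg h4 h5
    rwa [sub_add_sub_cancel] at h6
  refine ⟨π, h1, h2, ?_, h3⟩
  have hu : ∀ u : unitary A, ∀ x, π (star (u : A) * x * u) = π x := by
    intro u
    let T : A →ₗ[ℂ] A := (LinearMap.mulRight ℂ (u : A)).comp (LinearMap.mulLeft ℂ (star (u : A)))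
    have hT : ∀ x, T x = star (u : A) * x * u := fun _ => rfl
    have h4 := h3 (π.comp T) (fun a ha => h1 _ (star_left_conjugate_nonneg ha _)) (fun a ha => by
      have h5 := h2 _ (star_left_conjugate_nonneg ha (u : A))
      rw [LinearMap.sub_apply, htr, ← mul_assoc, (Unitary.mem_iff.1 u.2).2, one_mul] at h5
      exact h5)
    have h5 := h4.eq_zero (by
      rw [LinearMap.sub_apply, LinearMap.comp_apply, hT, mul_one, Unitary.coe_star_mul_self,
        sub_self])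
    intro x
    exact sub_eq_zero.1 (LinearMap.congr_fun h5 x)
  intro a b
  have h6 : π.comp (LinearMap.mulRight ℂ b) = π.comp (LinearMap.mulLeft ℂ b) := by
    refine LinearMap.ext_on (CStarAlgebra.span_unitary A) fun u hu' => ?_
    have := hu ⟨u, hu'⟩ (u * b)
    rw [← mul_assoc, (Unitary.mem_iff.1 hu').1, one_mul] at this
    exact this.symm
  exact LinearMap.congr_fun h6 a

end

end Vale.Agent.N070X
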