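import Vale.Agent.N070X.Select

/-! Towers of finite simplices, rational approximation, labels. -/

set_option linter.all false

namespace Vale.Agent.N070X

open Finset Filter

variable {V : Type*} [AddCommGroup V] [Module ℝ V] [TopologicalSpace V]
  [IsTopologicalAddGroup V] [ContinuousSMul ℝ V] {B : Set V} {h : V →L[ℝ] ℝ}

theorem Base.tower (H : Base B h) (f : ℕ → V →L[ℝ] ℝ) :
    ∃ (N : ℕ → ℕ) (x : ∀ n, Fin (N n) → V) (g : ∀ n, Fin (N n) → V →L[ℝ] ℝ),
      (∀ n, 0 < N n) ∧ (∀ n j, x n j ∈ B) ∧ (∀ n, ∀ y ∈ B, ∀ j, 0 ≤ g n j y) ∧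
      (∀ n, ∀ y ∈ B, ∑ j, g n j y = 1) ∧
      (∀ n l, l < n → ∀ y ∈ B, |∑ j, f l (x n j) * g n j y - f l y| ≤ (1 / 2) ^ n) ∧
      ∀ n, ∀ y ∈ B, ∑ i, |∑ j, g n i (x (n + 1) j) * g (n + 1) j y - g n i y| ≤ (1 / 2) ^ n := by
  let Lv := Σ N : ℕ, (Fin N → V) × (Fin N → V →L[ℝ] ℝ)
  let Val : ℕ → Lv → Prop := fun n l => 0 < l.1 ∧ (∀ j, l.2.1 j ∈ B) ∧
    (∀ y ∈ B, ∀ j, 0 ≤ l.2.2 j y) ∧ (∀ y ∈ B, ∑ j, l.2.2 j y = 1) ∧
    ∀ i, i < n → ∀ y ∈ B, |∑ j, f i (l.2.1 j) * l.2.2 j y - f i y| ≤ (1 / 2) ^ n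
  have step : ∀ (n : ℕ) (l : Lv), ∃ l' : Lv, Val n l' ∧ ∀ y ∈ B,
      ∑ i, |∑ j, l.2.2 i (l'.2.1 j) * l'.2.2 j y - l.2.2 i y| ≤ (1 / 2) ^ n := by
    intro n l
    have hε : (0 : ℝ) < (1 / 2) ^ n / (l.1 + 1) := by positivity
    obtain ⟨N, x, g, h0, h1, h2, h3, h4⟩ := H.factor (I := Fin n ⊕ Fin l.1)
      (Sum.elim (fun i => f i) l.2.2) hε
    have hle : ((1 : ℝ) / 2) ^ n / (l.1 + 1) ≤ (1 / 2) ^ n :=
      div_le_self (by positivity) (by have : (0 : ℝ) ≤ l.1 := Nat.cast_nonneg _; linarith)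
    refine ⟨⟨N, x, g⟩, ⟨h0, h1, h2, h3, fun i hi y hy => (h4 y hy (Sum.inl ⟨i, hi⟩)).trans hle⟩,
      fun y hy => ?_⟩
    refine (sum_le_sum fun i _ => h4 y hy (Sum.inr i)).trans ?_
    rw [sum_const, card_univ, Fintype.card_fin, nsmul_eq_mul, mul_div_assoc', div_le_iff₀
      (by positivity)]
    have : (0 : ℝ) < (1 / 2) ^ n := by positivity
    nlinarith
  choose nx h1 h2 using step
  let L : ℕ → Lv := fun n => Nat.rec (nx 0 ⟨0, fun _ => 0, fun _ => 0⟩) (fun n l => nx (n + 1) l) n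
  have hL : ∀ n, Val n (L n) := fun n => by
    cases n with
    | zero => exact h1 0 _
    | succ n => exact h1 (n + 1) _
  refine ⟨fun n => (L n).1, fun n => (L n).2.1, fun n => (L n).2.2, fun n => (hL n).1,
    fun n => (hL n).2.1, fun n => (hL n).2.2.1, fun n => (hL n).2.2.2.1,
    fun n => (hL n).2.2.2.2, fun n y hy => (h2 (n + 1) (L n) y hy).trans ?_⟩
  exact pow_le_pow_of_le_one (by norm_num) (by norm_num) (Nat.le_succ n)

theorem exists_count {C : Type} [Fintype C] {r L : ℕ} (hr : 0 < r)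
    (hC : Fintype.card C = L + r) (p : Fin r → ℝ) (hp0 : ∀ i, 0 ≤ p i) (hp1 : ∑ i, p i = 1) :
    ∃ s : C → Fin r, Function.Surjective s ∧
      ∑ i, |((univ.filter fun c => s c = i).card : ℝ) / Fintype.card C - p i| ≤
        3 * r / (L + r) := by
  classical
  let a : Fin r → ℕ := fun i => ⌊L * p i⌋₊ + 1
  have ha1 : ∀ i, (a i : ℝ) ≤ L * p i + 1 := fun i => by
    have := Nat.floor_le (mul_nonneg (Nat.cast_nonneg L) (hp0 i))
    simp only [a]; push_cast; linarith
  have ha2 : ∀ i, L * p i ≤ (a i : ℝ) := fun i => by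
    have := Nat.lt_floor_add_one (L * p i)
    simp only [a]; push_cast; linarith
  have hs1 : ((∑ i, a i : ℕ) : ℝ) ≤ L + r := by
    push_cast
    refine (sum_le_sum fun i _ => ha1 i).trans ?_
    rw [sum_add_distrib, ← mul_sum, hp1]; simp
  have hs2 : (L : ℝ) ≤ ((∑ i, a i : ℕ) : ℝ) := by
    push_cast
    refine le_trans ?_ (sum_le_sum fun i _ => ha2 i)
    rw [← mul_sum, hp1, mul_one]
  have hs1' : ∑ i, a i ≤ L + r := by exact_mod_cast hs1
  let i0 : Fin r := ⟨0, hr⟩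
  let d : ℕ := L + r - ∑ i, a i
  have hd : (d : ℝ) = L + r - ((∑ i, a i : ℕ) : ℝ) := by
    simp only [d]; rw [Nat.cast_sub hs1']; push_cast; rfl
  let n : Fin r → ℕ := fun i => a i + if i = i0 then d else 0
  have hn : ∑ i, n i = L + r := by
    simp only [n, sum_add_distrib, sum_ite_eq', mem_univ, if_true, d]; omega
  let e : C ≃ (Σ i, Fin (n i)) := Fintype.equivOfCardEq (by simp [hC, hn])
  have hcard : ∀ i, (univ.filter fun c => (e c).1 = i).card = n i := by
    intro i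
    have h1 : (univ.filter fun c => (e c).1 = i).card =
        (univ.filter fun q : (Σ i, Fin (n i)) => q.1 = i).card :=
      card_bij (fun c _ => e c) (by simp) (fun _ _ _ _ h => e.injective h)
        (fun q hq => ⟨e.symm q, by simpa using hq, by simp⟩)
    rw [h1]
    have h2 : (univ.filter fun q : (Σ i, Fin (n i)) => q.1 = i) =
        univ.map ⟨Sigma.mk i, sigma_mk_injective⟩ := by
      ext ⟨j, b⟩
      simp only [mem_filter, mem_univ, true_and, Finset.mem_map, Function.Embedding.coeFn_mk]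
      constructor
      · rintro rfl; exact ⟨b, rfl⟩
      · rintro ⟨b', hb'⟩; exact (congrArg Sigma.fst hb').symm
    rw [h2, card_map, card_univ, Fintype.card_fin]
  refine ⟨fun c => (e c).1, fun i => ⟨e.symm ⟨i, ⟨0, by simp only [n, a]; omega⟩⟩, by simp⟩, ?_⟩
  have hM : (0 : ℝ) < L + r := by positivity
  have hterm : ∀ i, |((univ.filter fun c => (e c).1 = i).card : ℝ) / Fintype.card C - p i| ≤
      (1 + r * p i + if i = i0 then (d : ℝ) else 0) / (L + r) := by
    intro i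
    rw [hcard, hC]
    push_cast
    rw [div_sub' hM.ne', abs_div, abs_of_pos hM]
    refine div_le_div_of_nonneg_right ?_ hM.le
    have h1 := ha1 i
    have h2 := ha2 i
    have h3 : 0 ≤ (r : ℝ) * p i := mul_nonneg (Nat.cast_nonneg _) (hp0 i)
    have h4 : (0 : ℝ) ≤ d := Nat.cast_nonneg _
    simp only [n]
    push_cast
    rw [abs_le]
    split_ifs <;> constructor <;> nlinarith
  refine (sum_le_sum fun i _ => hterm i).trans ?_
  rw [← sum_div]
  refine div_le_div_of_nonneg_right ?_ hM.le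
  simp only [sum_add_distrib, ← mul_sum, hp1, sum_ite_eq', mem_univ, if_true, sum_const,
    card_univ, Fintype.card_fin, nsmul_eq_mul]
  linarith

theorem exists_yy {C X : ℕ → Type} [∀ k, Finite (X k)] [∀ k, Nonempty (X k)]
    (s : ∀ k, C k → X (k + 1) → X k) : ∃ yy : ∀ k, (∀ j, C j) → X k,
    (∀ k F, yy k F = s k (F k) (yy (k + 1) F)) ∧
      ∀ k F F', (∀ j, k ≤ j → F j = F' j) → yy k F = yy k F' := by
  let T : (∀ j, C j) → (∀ k, X k) → ∀ k, X k := fun F u k => s k (F k) (u (k + 1))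
  let u0 : ∀ k, X k := fun k => Classical.arbitrary _
  let Y : (∀ j, C j) → ∀ k, ℕ → X k := fun F k n => (T F)^[n - k] u0 k
  choose yy hyy using fun k F => ((hyperfilter ℕ).map (Y F k)).eq_pure_of_finite
  have hm : ∀ k F, ∀ᶠ n in (hyperfilter ℕ : Filter ℕ), Y F k n = yy k F := by
    intro k F
    have : {yy k F} ∈ (hyperfilter ℕ).map (Y F k) := by rw [hyy]; simp
    exact this
  have hT : ∀ d k F F', (∀ j, k ≤ j → F j = F' j) → (T F)^[d] u0 k = (T F')^[d] u0 k := by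
    intro d
    induction d with
    | zero => intros; rfl
    | succ d ih =>
      intro k F F' hF
      rw [Function.iterate_succ_apply', Function.iterate_succ_apply']
      show s k (F k) _ = s k (F' k) _
      rw [hF k le_rfl, ih (k + 1) F F' fun j hj => hF j (by omega)]
  refine ⟨yy, fun k F => ?_, fun k F F' hF => ?_⟩
  · obtain ⟨n, h1, h2, h3⟩ := ((hm k F).and ((hm (k + 1) F).and
      ((eventually_ge_atTop (k + 1)).filter_mono Nat.hyperfilter_le_atTop))).exists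
    rw [← h1, ← h2]
    show (T F)^[n - k] u0 k = _
    rw [show n - k = n - (k + 1) + 1 by omega, Function.iterate_succ_apply']
  · obtain ⟨n, h1, h2⟩ := ((hm k F).and (hm k F')).exists
    rw [← h1, ← h2]
    exact hT _ k F F' hF

end Vale.Agent.N070X
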