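import Vale.Agent.N070X.Simple
import Vale.Agent.N070X.Tower

/-! Every metrizable simplex is the trace space of a simple AF algebra. -/

set_option linter.all false

namespace Vale.Agent.N070X

open scoped ComplexOrder
open Filter Topology Vale.Agent.P070 Vale.Agent.N070 Vale.Agent.N070X.Model

theorem mix {I J : Type} [Fintype I] [Fintype J] {a : I → J → ℝ} {t : J → ℝ} {δ : ℝ}
    (h0 : ∀ j, 0 ≤ t j) (h1 : ∑ j, t j = 1) (ha : ∀ j, ∑ i, |a i j| ≤ δ) :
    ∑ i, |∑ j, a i j * t j| ≤ δ := by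
  refine (Finset.sum_le_sum fun i _ => Finset.abs_sum_le_sum_abs _ _).trans ?_
  rw [Finset.sum_comm]
  calc ∑ j, ∑ i, |a i j * t j| = ∑ j, (∑ i, |a i j|) * t j :=
        Finset.sum_congr rfl fun j _ => by
          rw [Finset.sum_mul]
          exact Finset.sum_congr rfl fun i _ => by rw [abs_mul, abs_of_nonneg (h0 j)]
    _ ≤ ∑ j, δ * t j := Finset.sum_le_sum fun j _ => mul_le_mul_of_nonneg_right (ha j) (h0 j)
    _ = δ := by rw [← Finset.mul_sum, h1, mul_one]

universe u

variable {V : Type u} [AddCommGroup V] [Module ℝ V] [TopologicalSpace V]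
  [IsTopologicalAddGroup V] [ContinuousSMul ℝ V] {B : Set V} {h : V →L[ℝ] ℝ}

/-- a closed affine bijective correspondence between `B` and the traces of `D` -/
structure Corr (B : Set V) {D : Type} [CStarAlgebra D] (R : V → (D →ₗ[ℂ] ℂ) → Prop) : Prop where
  ex : ∀ b ∈ B, ∃ τ, IsTrace τ ∧ R b τ
  un : ∀ b σ σ', IsTrace σ → IsTrace σ' → R b σ → R b σ' → σ = σ'
  inj : ∀ b ∈ B, ∀ b' ∈ B, ∀ σ, R b σ → R b' σ → b = b'
  sur : ∀ σ, IsTrace σ → ∃ b ∈ B, R b σ
  aff : ∀ b b' σ σ' (s t : ℝ), 0 ≤ s → 0 ≤ t → s + t = 1 → R b σ → R b' σ' →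
    R (s • b + t • b') ((s : ℂ) • σ + (t : ℂ) • σ')
  closed : ∀ (ι : Type u) (U : Filter ι) [U.NeBot] (bs : ι → V) (σs : ι → (D →ₗ[ℂ] ℂ)) b σ,
    Tendsto bs U (𝓝 b) → (∀ d, Tendsto (fun i => σs i d) U (𝓝 (σ d))) →
    (∀ i, R (bs i) (σs i)) → R b σ

theorem Base.realize (H : Base B h) (f : ℕ → V →L[ℝ] ℝ)
    (hf : ∀ b ∈ B, ∀ b' ∈ B, (∀ n, f n b = f n b') → b = b') :
    ∃ (D : Type) (_ : CStarAlgebra D) (R : V → (D →ₗ[ℂ] ℂ) → Prop),
      TopologicalSpace.SeparableSpace D ∧ Naimark.IsSimpleAlg D ∧ ¬ FiniteDimensional ℂ D ∧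
      Corr B R := by
  classical
  obtain ⟨N, x, g, hN, hx, hg0, hg1, hgf, hgg⟩ := H.tower f
  let C : ℕ → Type := fun k => Fin (3 * N k * 2 ^ k + N k - 2 + 2)
  have hC : ∀ k, Fintype.card (C k) = 3 * N k * 2 ^ k + N k := fun k => by
    have h1 := hN k
    have h2 : 0 < 2 ^ k := by positivity
    have h3 : 3 ≤ 3 * N k * 2 ^ k := by nlinarith
    simp only [C, Fintype.card_fin]; omega
  choose s hs1 hs2 using fun k (j : Fin (N (k + 1))) => exists_count (hN k) (hC k)
    (fun i => g k i (x (k + 1) j)) (hg0 k _ (hx _ j)) (hg1 k _ (hx _ j))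
  have : ∀ k, Nonempty (Fin (N k)) := fun k => ⟨⟨0, hN k⟩⟩
  obtain ⟨yy, hy1, hy2⟩ := exists_yy (C := C) (X := fun k => Fin (N k)) fun k c j => s k j c
  let xs : Sys C fun k => Fin (N k) := ⟨fun k c j => s k j c, yy, hy1, hy2, fun k j => hs1 k j⟩
  have hρ : ∀ k j, ∑ i, |rho xs k i j - g k i (x (k + 1) j)| ≤ (1 / 2) ^ k := by
    intro k j
    have h1 := hs2 k j
    have h2 : (0 : ℝ) < N k := by exact_mod_cast hN k
    refine le_trans (le_of_eq ?_) (h1.trans ?_)
    · refine Finset.sum_congr rfl fun i _ => ?_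
      rw [rho]
      congr!
    · push_cast
      rw [div_le_iff₀ (by positivity), one_div, inv_pow, mul_add]
      have h3 : ((2 : ℝ) ^ k)⁻¹ * (3 * N k * 2 ^ k) = 3 * N k := by field_simp
      have h4 : 0 ≤ ((2 : ℝ) ^ k)⁻¹ * N k := by positivity
      linarith
  have hcomp : ∀ b ∈ B, ∀ k,
      ∑ i, |∑ j, rho xs k i j * g (k + 1) j b - g k i b| ≤ 2 * (1 / 2) ^ k := by
    intro b hb k
    have h1 := mix (hg0 (k + 1) b hb) (hg1 (k + 1) b hb) (hρ k)
    have h2 := hgg k b hb
    have h3 : ∀ i, |∑ j, rho xs k i j * g (k + 1) j b - g k i b| ≤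
        |∑ j, (rho xs k i j - g k i (x (k + 1) j)) * g (k + 1) j b| +
        |∑ j, g k i (x (k + 1) j) * g (k + 1) j b - g k i b| := by
      intro i
      refine le_trans (le_of_eq ?_) (abs_add_le _ _)
      congr 1
      simp only [sub_mul, Finset.sum_sub_distrib]
      ring
    refine (Finset.sum_le_sum fun i _ => h3 i).trans ?_
    rw [Finset.sum_add_distrib]
    linarith
  have hlim : Tendsto (fun k : ℕ => ((1 : ℝ) / 2) ^ k) atTop (𝓝 0) :=
    tendsto_pow_atTop_nhds_zero_of_lt_one (by norm_num) (by norm_num)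
  refine ⟨DD xs, inferInstance, fun b σ => ∀ k, ∑ y, ‖mu σ k y - g k y b‖ ≤ 4 * (1 / 2) ^ k,
    separable, simple, infinite_dim, ?_, ?_, ?_, ?_, ?_, ?_⟩
  · intro b hb
    exact exists_trace (xs := xs) (fun k y => g k y b) (fun k => hg0 k b hb)
      (fun k => hg1 k b hb) (hcomp b hb)
  · intro b σ σ' hσ hσ' h1 h2
    refine trace_unique hσ hσ' fun k => ?_
    have h3 : ∀ y, ‖mu σ k y - mu σ' k y‖ ≤ ‖mu σ k y - g k y b‖ + ‖mu σ' k y - g k y b‖ :=
      fun y => by
        rw [norm_sub_rev (mu σ' k y)]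
        exact norm_sub_le_norm_sub_add_norm_sub _ _ _
    refine (Finset.sum_le_sum fun y _ => h3 y).trans ?_
    rw [Finset.sum_add_distrib]
    linarith [h1 k, h2 k]
  · intro b hb b' hb' σ h1 h2
    refine hf b hb b' hb' fun l => ?_
    obtain ⟨c, hc⟩ := H.comp.exists_bound_of_continuousOn (f l).continuous.continuousOn
    have hc0 : 0 ≤ c := (norm_nonneg _).trans (hc b hb)
    have h3 : ∀ k, l < k → |f l b - f l b'| ≤ (2 + 8 * c) * (1 / 2) ^ k := by
      intro k hk
      have h4 : ∀ y, |g k y b - g k y b'| ≤ ‖mu σ k y - g k y b‖ + ‖mu σ k y - g k y b'‖ :=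
        fun y => by
          rw [← Real.norm_eq_abs, ← Complex.norm_real, norm_sub_rev (mu σ k y) (g k y b)]
          push_cast
          exact norm_sub_le_norm_sub_add_norm_sub _ _ _
      have h5 : ∑ y, |g k y b - g k y b'| ≤ 8 * (1 / 2) ^ k := by
        refine (Finset.sum_le_sum fun y _ => h4 y).trans ?_
        rw [Finset.sum_add_distrib]
        linarith [h1 k, h2 k]
      have h6 : |∑ j, f l (x k j) * g k j b - ∑ j, f l (x k j) * g k j b'| ≤
          c * (8 * (1 / 2) ^ k) := by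
        rw [← Finset.sum_sub_distrib]
        refine (Finset.abs_sum_le_sum_abs _ _).trans ?_
        refine le_trans ?_ (mul_le_mul_of_nonneg_left h5 hc0)
        rw [Finset.mul_sum]
        refine Finset.sum_le_sum fun j _ => ?_
        rw [← mul_sub, abs_mul]
        exact mul_le_mul_of_nonneg_right (hc _ (hx k j)) (abs_nonneg _)
      have h7 := abs_le.1 (hgf k l hk b hb)
      have h8 := abs_le.1 (hgf k l hk b' hb')
      have h9 := abs_le.1 h6
      rw [abs_le]
      constructor <;> linarith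
    have h4 : |f l b - f l b'| ≤ (2 + 8 * c) * 0 :=
      ge_of_tendsto (hlim.const_mul _) ((eventually_gt_atTop l).mono h3)
    rw [mul_zero, abs_nonpos_iff, sub_eq_zero] at h4
    exact h4
  · intro σ hσ
    choose t ht0 ht1 ht2 using mu_real hσ.1
    let b : ℕ → V := fun n => ∑ j, t (n + 1) j • x (n + 1) j
    have hb : ∀ n, b n ∈ B := fun n =>
      H.lat.conv.sum_mem (fun j _ => ht0 _ j) (ht1 _) fun j _ => hx _ j
    have hest : ∀ n k, k ≤ n → ∑ y, ‖mu σ k y - g k y (b n)‖ ≤ 4 * (1 / 2) ^ k := by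
      intro n k hk
      induction hk using Nat.decreasingInduction with
      | self =>
        have h1 := mix (ht0 (n + 1)) (ht1 (n + 1)) (hρ n)
        have h2 := down (xs := xs) (ν := σ) (k := n) (Or.inl (trL_of_trace hσ _))
          (t := fun y => g n y (b n)) (t' := t (n + 1)) (a := (1 / 2) ^ n) (b := 0)
          (le_trans (le_of_eq (Finset.sum_congr rfl fun i _ => by
            congr 1
            simp only [b, map_sum, map_smul, smul_eq_mul, ← Finset.sum_sub_distrib]
            exact Finset.sum_congr rfl fun j _ => by ring)) h1) (by simp [ht2])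
        have h3 : (0 : ℝ) < (1 / 2) ^ n := by positivity
        linarith
      | of_succ k hk ih =>
        refine (down (Or.inl (trL_of_trace hσ _)) (hcomp _ (hb n) k) ih).trans (le_of_eq ?_)
        ring
    obtain ⟨b0, hb0, hle⟩ := H.comp.ultrafilter_le_nhds ((hyperfilter ℕ).map b)
      (le_principal_iff.2 (mem_map.2 (univ_mem' hb)))
    have hT : Tendsto b (hyperfilter ℕ : Filter ℕ) (𝓝 b0) := hle
    refine ⟨b0, hb0, fun k => ?_⟩
    refine le_of_tendsto (tendsto_finsetSum _ fun y _ => (((Complex.continuous_ofReal.tendsto _).comp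
      (((g k y).continuous.tendsto _).comp hT)).const_sub _).norm) ?_
    filter_upwards [(eventually_ge_atTop k).filter_mono Nat.hyperfilter_le_atTop] with n hn
    exact hest n k hn
  · intro b b' σ σ' s t hs ht hst h1 h2 k
    have h3 : ∀ y, ‖mu ((s : ℂ) • σ + (t : ℂ) • σ') k y - g k y (s • b + t • b')‖ ≤
        s * ‖mu σ k y - g k y b‖ + t * ‖mu σ' k y - g k y b'‖ := by
      intro y
      have e : mu ((s : ℂ) • σ + (t : ℂ) • σ') k y - g k y (s • b + t • b') =
          (s : ℂ) * (mu σ k y - g k y b) + (t : ℂ) * (mu σ' k y - g k y b') := by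
        simp only [mu, LinearMap.add_apply, LinearMap.smul_apply, map_add, map_smul, smul_eq_mul]
        push_cast
        ring
      rw [e]
      refine (norm_add_le _ _).trans (le_of_eq ?_)
      rw [norm_mul, norm_mul, Complex.norm_real, Complex.norm_real, Real.norm_of_nonneg hs,
        Real.norm_of_nonneg ht]
    refine (Finset.sum_le_sum fun y _ => h3 y).trans ?_
    rw [Finset.sum_add_distrib, ← Finset.mul_sum, ← Finset.mul_sum]
    have h4 := mul_le_mul_of_nonneg_left (h1 k) hs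
    have h5 := mul_le_mul_of_nonneg_left (h2 k) ht
    have h6 : s * (4 * (1 / 2) ^ k) + t * (4 * (1 / 2) ^ k) = 4 * (1 / 2 : ℝ) ^ k := by
      rw [← add_mul, hst, one_mul]
    linarith
  · intro ι U _ bs σs b σ h1 h2 h3 k
    refine le_of_tendsto' (tendsto_finsetSum _ fun y _ => ((h2 _).sub
      ((Complex.continuous_ofReal.tendsto _).comp
      (((g k y).continuous.tendsto _).comp h1))).norm) fun i => h3 i k

end Vale.Agent.N070X
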