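import Vale.Agent.N070X.Defs
import Vale.Agent.N070X.Realize
import Vale.Agent.N070X.Lub

/-! The final theorem. -/

set_option linter.all false

namespace Vale.Agent.N070X

open scoped ComplexOrder
open Filter Topology Vale.Agent.P070 Vale.Agent.N070

universe u v w

section traces
variable {A : Type} [CStarAlgebra A]

/-- the underlying linear functional -/
noncomputable def lin (τ : WeakDual ℂ A) : A →ₗ[ℂ] ℂ :=
  (WeakDual.toStrongDual τ : A →L[ℂ] ℂ).toLinearMap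

theorem lin_apply (τ : WeakDual ℂ A) (a : A) : lin τ a = τ a := rfl

theorem lin_inj {τ σ : WeakDual ℂ A} (h : lin τ = lin σ) : τ = σ :=
  DFunLike.ext _ _ fun a => LinearMap.congr_fun h a

theorem mem_traces {τ : WeakDual ℂ A} : τ ∈ traces A ↔ IsTrace (lin τ) := by
  refine ⟨fun h => ⟨⟨h.1, fun a => ?_⟩, h.2.2⟩, fun h => ⟨h.1.1, fun a => ?_, h.2⟩⟩
  · obtain ⟨r, h1, h2⟩ := h.2.1 a
    rw [lin_apply, h2]
    exact Complex.zero_le_real.2 h1
  · obtain ⟨h1, h2⟩ := Complex.nonneg_iff.1 (h.1.2 a)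
    exact ⟨_, h1, Complex.ext rfl h2.symm⟩

theorem exists_lin {σ : A →ₗ[ℂ] ℂ} (h : IsState σ) : ∃ τ : WeakDual ℂ A, lin τ = σ :=
  ⟨StrongDual.toWeakDual ⟨σ, h.continuous⟩, rfl⟩

theorem isCompact_traces : IsCompact (traces A) := by
  refine (WeakDual.isCompact_closedBall (0 : StrongDual ℂ A) 1).of_isClosed_subset ?_ ?_
  · have : traces A = {τ | τ 1 = 1} ∩ ((⋂ a, {τ | 0 ≤ τ (star a * a)}) ∩
        ⋂ a, ⋂ b, {τ | τ (a * b) = τ (b * a)}) := by
      ext τ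
      simp only [mem_traces, Set.mem_inter_iff, Set.mem_iInter, Set.mem_setOf_eq]
      exact and_assoc
    rw [this]
    exact (isClosed_eq (WeakDual.eval_continuous _) continuous_const).inter
      ((isClosed_iInter fun a => isClosed_le continuous_const (WeakDual.eval_continuous _)).inter
      (isClosed_iInter fun a => isClosed_iInter fun b =>
        isClosed_eq (WeakDual.eval_continuous _) (WeakDual.eval_continuous _)))
  · intro τ hτ
    rw [Set.mem_preimage, mem_closedBall_zero_iff]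
    exact ContinuousLinearMap.opNorm_le_bound _ zero_le_one fun a => by
      rw [one_mul]; exact ((mem_traces.1 hτ).1.sq_le a).2

theorem trace_comb {σ σ' : A →ₗ[ℂ] ℂ} (h : IsTrace σ) (h' : IsTrace σ') {s t : ℝ} (hs : 0 ≤ s)
    (ht : 0 ≤ t) (hst : s + t = 1) : IsTrace ((s : ℂ) • σ + (t : ℂ) • σ') := by
  refine ⟨⟨?_, fun a => ?_⟩, fun a b => ?_⟩
  · simp only [LinearMap.add_apply, LinearMap.smul_apply, h.1.1, h'.1.1, smul_eq_mul, mul_one]
    exact_mod_cast hst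
  · exact add_nonneg (mul_nonneg (Complex.zero_le_real.2 hs) (h.1.2 a))
      (mul_nonneg (Complex.zero_le_real.2 ht) (h'.1.2 a))
  · simp only [LinearMap.add_apply, LinearMap.smul_apply, h.2 a b, h'.2 a b]

end traces

section realize
variable {E : Type u} [AddCommGroup E] [Module ℝ E] [TopologicalSpace E] [IsTopologicalAddGroup E]
  [ContinuousSMul ℝ E] [SeparatingDual ℝ E] [T2Space E] {K : Set E}

theorem cn_eq (K : Set E) : cn ((fun x => (x, (1 : ℝ))) '' K) = cone K := by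
  ext p
  constructor
  · rintro ⟨t, ht, _, ⟨x, hx, rfl⟩, rfl⟩
    exact ⟨t, ht, x, hx, by simp⟩
  · rintro ⟨t, ht, x, hx, rfl⟩
    exact ⟨t, ht, _, ⟨x, hx, rfl⟩, by simp⟩

theorem sepE (v : E × ℝ) (hv : v ≠ 0) : ∃ f : (E × ℝ) →L[ℝ] ℝ, f v ≠ 0 := by
  by_cases h : v.2 = 0
  · obtain ⟨f, hf⟩ := SeparatingDual.exists_ne_zero (R := ℝ) (x := v.1)
      fun h1 => hv (Prod.ext h1 h)
    exact ⟨f.comp (ContinuousLinearMap.fst ℝ E ℝ), hf⟩
  · exact ⟨ContinuousLinearMap.snd ℝ E ℝ, h⟩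

theorem base_of (hK : IsCompact K) (hc : Convex ℝ K) (hne : K.Nonempty) (hs : IsSimplex K) :
    Base ((fun x => (x, (1 : ℝ))) '' K) (ContinuousLinearMap.snd ℝ E ℝ) := by
  refine ⟨⟨?_, hne.image _, ?_, ?_⟩, hK.image (by fun_prop), sepE⟩
  · rintro _ ⟨x, hx, rfl⟩ _ ⟨y, hy, rfl⟩ a b ha hb hab
    exact ⟨_, hc hx hy ha hb hab, by simp [hab]⟩
  · rintro _ ⟨x, hx, rfl⟩; rfl
  · rw [cn_eq]; exact hs

theorem exists_sep (hK : IsCompact K) [TopologicalSpace.MetrizableSpace K] :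
    ∃ f : ℕ → E →L[ℝ] ℝ, ∀ x ∈ K, ∀ y ∈ K, (∀ n, f n x = f n y) → x = y := by
  have : CompactSpace K := isCompact_iff_compactSpace.1 hK
  letI := TopologicalSpace.metrizableSpaceMetric K
  obtain ⟨T, hT, hU⟩ := TopologicalSpace.isOpen_iUnion_countable
    (fun f : E →L[ℝ] ℝ => {p : K × K | f p.1 ≠ f p.2})
    (fun f => isOpen_ne_fun (by fun_prop) (by fun_prop))
  obtain ⟨f, hf⟩ := (hT.insert 0).exists_eq_range (Set.insert_nonempty _ _)
  refine ⟨f, fun x hx y hy h => by_contra fun hne => ?_⟩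
  obtain ⟨g, hg⟩ := SeparatingDual.exists_separating_of_ne (R := ℝ) hne
  have h1 : ((⟨x, hx⟩, ⟨y, hy⟩) : K × K) ∈ ⋃ i ∈ T, {p : K × K | i p.1 ≠ i p.2} := by
    rw [hU]; exact Set.mem_iUnion.2 ⟨g, hg⟩
  obtain ⟨i, hi, h2⟩ := Set.mem_iUnion₂.1 h1
  obtain ⟨n, rfl⟩ : i ∈ Set.range f := hf ▸ Set.mem_insert_of_mem _ hi
  exact h2 (h n)

theorem realize (hK : IsCompact K) (hc : Convex ℝ K) [TopologicalSpace.MetrizableSpace K]
    (hs : IsSimplex K) : ∃ (A : Type) (_ : CStarAlgebra A) (τ : E → WeakDual ℂ A),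
      Naimark.PropertyN.{0, v} A ∧ ¬ Naimark.IsCompacts.{0, w} A ∧ IsTraceSpace K A τ := by
  classical
  rcases K.eq_empty_or_nonempty with rfl | hne
  · obtain ⟨A, _, h1, h2, h3⟩ := traceless.{v, w}
    refine ⟨A, inferInstance, fun _ => 0, h1, h2, ?_, ?_, by simp⟩
    · have : IsEmpty (∅ : Set E) := by simp
      exact Topology.IsEmbedding.of_subsingleton _
    · rw [Set.image_empty]
      exact (Set.eq_empty_of_forall_notMem fun τ hτ => h3 _ (mem_traces.1 hτ)).symm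
  obtain ⟨f, hf⟩ := exists_sep hK
  obtain ⟨D, _, R, hsep, hsim, hinf, hR⟩ := (base_of hK hc hne hs).realize
    (fun n => (f n).comp (ContinuousLinearMap.fst ℝ E ℝ)) (by
      rintro _ ⟨x, hx, rfl⟩ _ ⟨y, hy, rfl⟩ h
      rw [hf x hx y hy h])
  obtain ⟨A, _, j, h1, h2, -, hext⟩ := embed_all.{v, w} D hsim hinf
  let r : WeakDual ℂ A → (D →ₗ[ℂ] ℂ) := fun τ => (lin τ).comp j.toAlgHom.toLinearMap
  have hex : ∀ x ∈ K, ∃ τ ∈ traces A, R (x, 1) (r τ) := by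
    intro x hx
    obtain ⟨σ, hσ, hRσ⟩ := hR.ex _ ⟨x, hx, rfl⟩
    obtain ⟨σ', h3, h4, -⟩ := hext σ hσ
    obtain ⟨τ, rfl⟩ := exists_lin h3.1
    refine ⟨τ, mem_traces.2 h3, ?_⟩
    have : r τ = σ := LinearMap.ext h4
    rwa [this]
  have hun : ∀ x, ∀ τ ∈ traces A, ∀ τ' ∈ traces A, R (x, 1) (r τ) → R (x, 1) (r τ') → τ = τ' := by
    intro x τ hτ τ' hτ' h3 h4
    have h5 := (mem_traces.1 hτ).comp j
    have h6 := hR.un _ _ _ h5 ((mem_traces.1 hτ').comp j) h3 h4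
    obtain ⟨σ, -, -, h7⟩ := hext _ h5
    exact lin_inj ((h7 _ (mem_traces.1 hτ).1 fun d => rfl).trans
      (h7 _ (mem_traces.1 hτ').1 fun d => (LinearMap.congr_fun h6 d).symm).symm)
  choose! τ hτ1 hτ2 using hex
  have : CompactSpace K := isCompact_iff_compactSpace.1 hK
  refine ⟨A, inferInstance, τ, h1, h2, ?_, ?_, ?_⟩
  · refine (Continuous.isClosedEmbedding ?_ ?_).isEmbedding
    · rw [continuous_iff_ultrafilter]
      intro x U hU
      obtain ⟨σ, hσ, hle⟩ := isCompact_traces.ultrafilter_le_nhds (U.map (fun y : K => τ y))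
        (le_principal_iff.2 (mem_map.2 (univ_mem' fun y => hτ1 y y.2)))
      have hT : Tendsto (fun y : K => τ y) U (𝓝 σ) := hle
      have h3 : R (x.1, 1) (r σ) := hR.closed K U (fun y => (y.1, 1)) (fun y => r (τ y)) _ _
        ((Continuous.tendsto (f := fun y : K => (y.1, (1 : ℝ))) (by fun_prop) x).mono_left hU)
        (fun d => ((WeakDual.eval_continuous (j d)).tendsto σ).comp hT) fun y => hτ2 y y.2
      rwa [hun _ _ hσ _ (hτ1 x x.2) h3 (hτ2 x x.2)] at hT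
    · intro x y hxy
      have h3 : τ x = τ y := hxy
      have h4 := hR.inj _ ⟨x, x.2, rfl⟩ _ ⟨y, y.2, rfl⟩ _ (hτ2 x x.2) (h3 ▸ hτ2 y y.2)
      exact Subtype.ext (congrArg Prod.fst h4)
  · refine Set.Subset.antisymm (by rintro _ ⟨x, hx, rfl⟩; exact hτ1 x hx) fun σ hσ => ?_
    obtain ⟨_, ⟨x, hx, rfl⟩, h3⟩ := hR.sur _ ((mem_traces.1 hσ).comp j)
    exact ⟨x, hx, hun x _ (hτ1 x hx) _ hσ (hτ2 x hx) h3⟩
  · intro x hx y hy s t hs ht hst
    have hz := hc hx hy hs ht hst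
    refine hun _ _ (hτ1 _ hz) _ (mem_traces.2 (trace_comb (mem_traces.1 (hτ1 x hx))
      (mem_traces.1 (hτ1 y hy)) hs ht hst)) (hτ2 _ hz) ?_
    have h3 := hR.aff _ _ _ _ s t hs ht hst (hτ2 x hx) (hτ2 y hy)
    have e : s • (x, (1 : ℝ)) + t • (y, (1 : ℝ)) = (s • x + t • y, 1) := by simp [hst]
    rw [e] at h3
    exact h3

end realize

section converse
variable {E : Type u} [AddCommGroup E] [Module ℝ E] [TopologicalSpace E] {K : Set E}
  {A : Type} [CStarAlgebra A] {τ : E → WeakDual ℂ A}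

/-- points of the cone and positive tracial functionals -/
def Rel (K : Set E) (τ : E → WeakDual ℂ A) (p : E × ℝ) (φ : A →ₗ[ℂ] ℂ) : Prop :=
  ∃ t : ℝ, 0 ≤ t ∧ ∃ x ∈ K, p = (t • x, t) ∧ φ = (t : ℂ) • lin (τ x)

theorem IsTraceSpace.tr (H : IsTraceSpace K A τ) {x : E} (hx : x ∈ K) : IsTrace (lin (τ x)) :=
  mem_traces.1 (H.2.1 ▸ Set.mem_image_of_mem τ hx)

theorem Rel.add (H : IsTraceSpace K A τ) (hc : Convex ℝ K) {p q : E × ℝ} {φ ψ : A →ₗ[ℂ] ℂ}
    (h1 : Rel K τ p φ) (h2 : Rel K τ q ψ) : Rel K τ (p + q) (φ + ψ) := by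
  obtain ⟨t, ht, x, hx, rfl, rfl⟩ := h1
  obtain ⟨s, hs, y, hy, rfl, rfl⟩ := h2
  rcases (add_nonneg ht hs).eq_or_lt with h0 | h0
  · have h1 : t = 0 := by linarith
    have h2 : s = 0 := by linarith
    exact ⟨0, le_rfl, x, hx, by simp [h1, h2], by simp [h1, h2]⟩
  · have ha : 0 ≤ t / (t + s) := by positivity
    have hb : 0 ≤ s / (t + s) := by positivity
    have hab : t / (t + s) + s / (t + s) = 1 := by field_simp
    refine ⟨t + s, h0.le, _, hc hx hy ha hb hab, ?_, ?_⟩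
    · rw [smul_add, smul_smul, smul_smul, mul_div_cancel₀ _ h0.ne', mul_div_cancel₀ _ h0.ne']
      rfl
    · rw [H.2.2 x hx y hy _ _ ha hb hab]
      ext a
      have h3 : ((t + s : ℝ) : ℂ) ≠ 0 := by exact_mod_cast h0.ne'
      show (t : ℂ) * τ x a + (s : ℂ) * τ y a = ((t + s : ℝ) : ℂ) *
        (((t / (t + s) : ℝ) : ℂ) * τ x a + ((s / (t + s) : ℝ) : ℂ) * τ y a)
      push_cast at h3 ⊢
      field_simp

theorem Rel.inj (H : IsTraceSpace K A τ) {p q : E × ℝ} {φ : A →ₗ[ℂ] ℂ}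
    (h1 : Rel K τ p φ) (h2 : Rel K τ q φ) : p = q := by
  obtain ⟨t, ht, x, hx, rfl, rfl⟩ := h1
  obtain ⟨s, hs, y, hy, rfl, h⟩ := h2
  have h1 := LinearMap.congr_fun h 1
  simp only [LinearMap.smul_apply, (H.tr hx).1.1, (H.tr hy).1.1, smul_eq_mul, mul_one] at h1
  obtain rfl : t = s := by exact_mod_cast h1
  rcases ht.eq_or_lt with rfl | h0
  · simp
  · have h3 : (t : ℂ) ≠ 0 := by exact_mod_cast h0.ne'
    have h4 : (⟨x, hx⟩ : K) = ⟨y, hy⟩ := H.1.injective (lin_inj (smul_right_injective _ h3 h))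
    rw [show x = y from congrArg Subtype.val h4]

theorem Rel.unique (H : IsTraceSpace K A τ) {p : E × ℝ} {φ ψ : A →ₗ[ℂ] ℂ}
    (h1 : Rel K τ p φ) (h2 : Rel K τ p ψ) : φ = ψ := by
  obtain ⟨t, ht, x, hx, rfl, rfl⟩ := h1
  obtain ⟨s, hs, y, hy, h, rfl⟩ := h2
  obtain ⟨h1, rfl⟩ := Prod.mk.inj h
  rcases ht.eq_or_lt with rfl | h0
  · simp
  · rw [smul_right_injective _ h0.ne' h1]

theorem isSimplex_of (H : IsTraceSpace K A τ) (hc : Convex ℝ K) : IsSimplex K := by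
  letI := CStarAlgebra.spectralOrder A
  haveI := CStarAlgebra.spectralOrderedRing A
  have hrel : ∀ p ∈ cone K, ∃ φ, Rel K τ p φ := by
    rintro _ ⟨t, ht, x, hx, rfl⟩
    exact ⟨_, t, ht, x, hx, rfl, rfl⟩
  have hcone : ∀ p φ, Rel K τ p φ → p ∈ cone K := by
    rintro _ _ ⟨t, ht, x, hx, rfl, rfl⟩
    exact ⟨t, ht, x, hx, rfl⟩
  have hprop : ∀ p φ, Rel K τ p φ → Pos φ ∧ (∀ a b, φ (a * b) = φ (b * a)) ∧
      ∃ c : ℝ, ∀ a, ‖φ a‖ ≤ c * ‖a‖ := by
    rintro _ _ ⟨t, ht, x, hx, rfl, rfl⟩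
    refine ⟨fun a ha => ?_, fun a b => ?_, t, fun a => ?_⟩
    · obtain ⟨b, rfl⟩ := CStarAlgebra.nonneg_iff_eq_star_mul_self.1 ha
      exact mul_nonneg (Complex.zero_le_real.2 ht) ((H.tr hx).1.2 b)
    · simp only [LinearMap.smul_apply, (H.tr hx).2 a b]
    · rw [LinearMap.smul_apply, norm_smul, Complex.norm_real, Real.norm_of_nonneg ht]
      exact mul_le_mul_of_nonneg_left ((H.tr hx).1.sq_le a).2 ht
  intro p hp q hq
  have hsur : ∀ φ : A →ₗ[ℂ] ℂ, Pos φ → (∀ a b, φ (a * b) = φ (b * a)) → ∃ p, Rel K τ p φ := by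
    intro φ h1 h2
    obtain ⟨h3, h4⟩ := Complex.nonneg_iff.1 (h1 1 zero_le_one)
    have h5 : φ 1 = ((φ 1).re : ℝ) := Complex.ext rfl (by simpa using h4.symm)
    rcases h3.eq_or_lt with h0 | h0
    · obtain ⟨-, -, x, hx, -⟩ := hp
      refine ⟨_, 0, le_rfl, x, hx, rfl, ?_⟩
      rw [h1.eq_zero (by rw [h5, ← h0]; rfl)]; simp
    · have h6 : (((φ 1).re : ℝ) : ℂ) ≠ 0 := by exact_mod_cast h0.ne'
      have h7 : IsTrace ((((φ 1).re⁻¹ : ℝ) : ℂ) • φ) := by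
        refine ⟨⟨?_, fun a => mul_nonneg (Complex.zero_le_real.2 (inv_nonneg.2 h3))
          (h1 _ (star_mul_self_nonneg a))⟩, fun a b => by
          simp only [LinearMap.smul_apply, h2 a b]⟩
        rw [LinearMap.smul_apply, smul_eq_mul, Complex.ofReal_inv, ← h5, inv_mul_cancel₀ (h5 ▸ h6)]
      obtain ⟨σ, hσ⟩ := exists_lin h7.1
      obtain ⟨x, hx, rfl⟩ : σ ∈ τ '' K := H.2.1 ▸ mem_traces.2 (hσ ▸ h7)
      refine ⟨_, (φ 1).re, h3, x, hx, rfl, ?_⟩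
      rw [hσ, smul_smul, Complex.ofReal_inv, mul_inv_cancel₀ h6, one_smul]
  have hdiff : ∀ p q φ ψ, Rel K τ p φ → Rel K τ q ψ → Pos (φ - ψ) → p - q ∈ cone K := by
    intro p q φ ψ h1 h2 h3
    obtain ⟨d, hd⟩ := hsur _ h3 fun a b => by
      simp only [LinearMap.sub_apply, (hprop _ _ h1).2.1 a b, (hprop _ _ h2).2.1 a b]
    have h4 := hd.add H hc h2
    rw [sub_add_cancel] at h4
    rw [h1.inj H h4, add_sub_cancel_right]
    exact hcone _ _ hd
  obtain ⟨φ, hφ⟩ := hrel p hp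
  obtain ⟨ψ, hψ⟩ := hrel q hq
  obtain ⟨a1, a2, c, a3⟩ := hprop _ _ hφ
  obtain ⟨b1, b2, d, b3⟩ := hprop _ _ hψ
  obtain ⟨π, p1, p2, p3, p4⟩ := exists_posPart (φ - ψ) (c := c + d)
    (fun a => (norm_sub_le _ _).trans (by rw [add_mul]; exact add_le_add (a3 a) (b3 a)))
    (fun a ha => by
      rw [LinearMap.sub_apply, Complex.sub_im, ← (Complex.nonneg_iff.1 (a1 a ha)).2,
        ← (Complex.nonneg_iff.1 (b1 a ha)).2, sub_zero])
    (fun a b => by simp only [LinearMap.sub_apply, a2 a b, b2 a b])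
  obtain ⟨r, hr⟩ := hsur π p1 p3
  have hr' := hr.add H hc hψ
  refine ⟨r + q, hdiff _ _ _ _ hr' hφ (by convert p2 using 1; abel),
    hdiff _ _ _ _ hr' hψ (by convert p1 using 1; abel), fun s hs1 hs2 => ?_⟩
  obtain ⟨α, hα⟩ := hrel _ hs1
  obtain ⟨β, hβ⟩ := hrel _ hs2
  have h1 := hα.add H hc hφ
  have h2 := hβ.add H hc hψ
  rw [sub_add_cancel] at h1 h2
  have h3 := h1.unique H h2
  refine hdiff _ _ _ _ h2 hr' ?_
  have h4 := p4 β (hprop _ _ hβ).1 (by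
    convert (hprop _ _ hα).1 using 1
    rw [← sub_add, ← sub_eq_iff_eq_add.2 h3]; abel)
  convert h4 using 1; abel

end converse

section separable
variable {B : Type} [CStarAlgebra B]

theorem sepDual : SeparatingDual ℝ (WeakDual ℂ B) := by
  refine ⟨fun τ hτ => ?_⟩
  obtain ⟨a, ha⟩ : ∃ a, τ a ≠ 0 := by
    by_contra! h
    exact hτ (DFunLike.ext _ _ h)
  let ev : WeakDual ℂ B →L[ℝ] ℂ :=
    ⟨⟨⟨fun σ => σ a, fun _ _ => rfl⟩, fun _ _ => rfl⟩, WeakDual.eval_continuous a⟩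
  by_cases h : (τ a).re = 0
  · exact ⟨Complex.imCLM.comp ev, fun h1 => ha (Complex.ext h h1)⟩
  · exact ⟨Complex.reCLM.comp ev, h⟩

theorem smul_eq (s : ℝ) (τ : WeakDual ℂ B) : s • τ = (s : ℂ) • τ :=
  DFunLike.ext _ _ fun a => rfl

theorem isTraceSpace_self : IsTraceSpace (traces B) B id :=
  ⟨Topology.IsEmbedding.subtypeVal, Set.image_id _, fun x _ y _ s t _ _ _ => by
    simp only [id, smul_eq]⟩

theorem convex_traces : Convex ℝ (traces B) := fun x hx y hy s t hs ht hst => by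
  rw [smul_eq, smul_eq]
  exact mem_traces.2 (trace_comb (mem_traces.1 hx) (mem_traces.1 hy) hs ht hst)

theorem realize_sep [TopologicalSpace.SeparableSpace B] :
    ∃ (A : Type) (_ : CStarAlgebra A) (τ : WeakDual ℂ B → WeakDual ℂ A),
      Naimark.PropertyN.{0, v} A ∧ ¬ Naimark.IsCompacts.{0, w} A ∧ IsTraceSpace (traces B) A τ := by
  haveI := sepDual (B := B)
  haveI := WeakDual.metrizable_of_isCompact ℂ B _ isCompact_traces
  exact realize isCompact_traces convex_traces (isSimplex_of isTraceSpace_self convex_traces)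

end separable

end Vale.Agent.N070X
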