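import Vale.Agent.N070X.Cone

/-! Minimax, selection, and approximate factorisation of a simplex through finite simplices. -/

set_option linter.all false

namespace Vale.Agent.N070X

open Finset

theorem minimax {W : Type*} [AddCommGroup W] [Module ℝ W] [TopologicalSpace W]
    [IsTopologicalAddGroup W] [ContinuousSMul ℝ W] {Z : Set W} (hZ : IsCompact Z)
    (hc : Convex ℝ Z) (hne : Z.Nonempty) {𝓕 : Set (W →L[ℝ] ℝ)} (hF : Convex ℝ 𝓕)
    (H : ∀ z ∈ Z, ∃ φ ∈ 𝓕, φ z < 0) : ∃ φ ∈ 𝓕, ∀ z ∈ Z, φ z < 0 := by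
  classical
  obtain ⟨s, hs⟩ := hZ.elim_finite_subcover (fun φ : 𝓕 => {z | φ.1 z < 0})
    (fun φ => isOpen_lt φ.1.continuous continuous_const) (fun z hz => by
      obtain ⟨φ, h1, h2⟩ := H z hz
      exact Set.mem_iUnion.2 ⟨⟨φ, h1⟩, h2⟩)
  let Φ : W →L[ℝ] (s → ℝ) := ContinuousLinearMap.pi fun i => i.1.1
  have hO : Convex ℝ {y : s → ℝ | ∀ i, 0 ≤ y i} := fun y hy y' hy' a b ha hb _ i =>
    add_nonneg (mul_nonneg ha (hy i)) (mul_nonneg hb (hy' i))
  have hOc : IsClosed {y : s → ℝ | ∀ i, 0 ≤ y i} := by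
    rw [Set.setOf_forall]
    exact isClosed_iInter fun i => isClosed_le continuous_const (continuous_apply i)
  obtain ⟨ψ, u, v, h1, h2, h3⟩ := geometric_hahn_banach_compact_closed
    (hc.linear_image Φ.toLinearMap) (hZ.image Φ.continuous) hO hOc (by
      rw [Set.disjoint_left]
      rintro _ ⟨z, hz, rfl⟩ h0
      obtain ⟨φ, hφ, h4⟩ := Set.mem_iUnion₂.1 (hs hz)
      exact (h0 ⟨φ, hφ⟩).not_gt h4)
  have hv : v < 0 := by simpa using h3 0 fun i => le_rfl
  let t : s → ℝ := fun i => ψ (Pi.single i 1)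
  have ht : ∀ i, 0 ≤ t i := by
    intro i
    by_contra hn
    push Not at hn
    have h4 := h3 ((v / t i) • Pi.single i 1) fun j => by
      rw [Pi.smul_apply, smul_eq_mul]
      refine mul_nonneg (div_nonneg_of_nonpos hv.le hn.le) ?_
      rw [Pi.single_apply]; split_ifs <;> norm_num
    rw [map_smul, smul_eq_mul, div_mul_cancel₀ _ hn.ne] at h4
    exact lt_irrefl _ h4
  have hψ : ∀ z, ψ (Φ z) = ∑ i, t i * i.1.1 z := by
    intro z
    have := (ψ : (s → ℝ) →ₗ[ℝ] ℝ).pi_apply_eq_sum_univ (Φ z)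
    rw [ContinuousLinearMap.coe_coe] at this
    rw [this]
    refine sum_congr rfl fun i _ => ?_
    rw [smul_eq_mul, mul_comm]
    congr 2
    funext j
    rw [Pi.single_apply]
    exact if_congr eq_comm rfl rfl
  have hneg : ∀ z ∈ Z, ∑ i, t i * i.1.1 z < 0 := fun z hz => by
    rw [← hψ]; exact (h1 _ ⟨z, hz, rfl⟩).trans (h2.trans hv)
  have hT : 0 < ∑ i, t i := by
    obtain ⟨z, hz⟩ := hne
    refine (sum_nonneg fun i _ => ht i).lt_of_ne fun h0 => ?_
    have h5 := (sum_eq_zero_iff_of_nonneg fun i _ => ht i).1 h0.symm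
    have h6 := hneg z hz
    rw [sum_eq_zero fun i hi => by rw [h5 i hi, zero_mul]] at h6
    exact lt_irrefl _ h6
  refine ⟨∑ i, (t i / ∑ i, t i) • i.1.1, hF.sum_mem (fun i _ => div_nonneg (ht i) hT.le)
    (by rw [← sum_div, div_self hT.ne']) fun i _ => i.1.2, fun z hz => ?_⟩
  rw [ContinuousLinearMap.sum_apply]
  simp only [ContinuousLinearMap.smul_apply, smul_eq_mul, div_mul_eq_mul_div]
  rw [← sum_div]
  exact div_neg_of_neg_of_pos (hneg z hz) hT

variable {V : Type*} [AddCommGroup V] [Module ℝ V] [TopologicalSpace V]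
  [IsTopologicalAddGroup V] [ContinuousSMul ℝ V]

/-- a compact base of a lattice cone in a space with separating dual -/
structure Base (B : Set V) (h : V →L[ℝ] ℝ) : Prop where
  lat : Lat B (h : V →ₗ[ℝ] ℝ)
  comp : IsCompact B
  sep : ∀ v : V, v ≠ 0 → ∃ f : V →L[ℝ] ℝ, f v ≠ 0

variable {B : Set V} {h : V →L[ℝ] ℝ}

theorem Base.one (H : Base B h) {b : V} (hb : b ∈ B) : h b = 1 := H.lat.one b hb

theorem Base.select (H : Base B h) {L J : Type} [Fintype L] [Fintype J] [Nonempty L]
    (M : L → J → ℝ) (u : L → V →L[ℝ] ℝ)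
    (hp : ∀ y ∈ B, ∃ t : J → ℝ, ∀ l, ∑ j, M l j * t j < u l y) :
    ∃ g : J → V →L[ℝ] ℝ, ∀ y ∈ B, ∀ l, ∑ j, M l j * g j y < u l y := by
  classical
  let Z : Set (L → V) := {z | (∀ l, z l ∈ cn B) ∧ ∑ l, h (z l) = 1}
  let F : (J → V →L[ℝ] ℝ) → ((L → V) →L[ℝ] ℝ) := fun g =>
    ∑ l, (∑ j, M l j • g j - u l).comp (ContinuousLinearMap.proj l)
  have hF : ∀ g z, F g z = ∑ l, (∑ j, M l j * g j (z l) - u l (z l)) := by
    intro g z
    simp [F, ContinuousLinearMap.sum_apply]
  have hF2 : ∀ g z, F g z = ∑ j, g j (∑ l, M l j • z l) - ∑ l, u l (z l) := by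
    intro g z
    rw [hF, sum_sub_distrib, sum_comm]
    simp [map_sum]
  have hZc : IsCompact Z := by
    have h1 := ((isCompact_stdSimplex ℝ L).prod (isCompact_univ_pi fun _ : L => H.comp)).image
      (f := fun x : (L → ℝ) × (L → V) => fun l => x.1 l • x.2 l) (by fun_prop)
    convert h1 using 1
    ext z
    constructor
    · rintro ⟨h2, h3⟩
      choose t ht b hb e using h2
      refine ⟨(t, b), ⟨⟨ht, ?_⟩, fun l _ => hb l⟩, funext fun l => (e l).symm⟩
      rw [← h3]
      exact sum_congr rfl fun l _ => by rw [e l, map_smul, H.one (hb l), smul_eq_mul, mul_one]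
    · rintro ⟨⟨t, b⟩, ⟨⟨h2, h3⟩, h4⟩, rfl⟩
      refine ⟨fun l => ⟨t l, h2 l, b l, h4 l trivial, rfl⟩, ?_⟩
      rw [← h3]
      exact sum_congr rfl fun l _ => by
        rw [map_smul, H.one (h4 l trivial), smul_eq_mul, mul_one]
  have hZv : Convex ℝ Z := by
    intro z hz z' hz' a b ha hb hab
    refine ⟨fun l => H.lat.add (cn_smul (hz.1 l) ha) (cn_smul (hz'.1 l) hb), ?_⟩
    simp only [Pi.add_apply, Pi.smul_apply, map_add, map_smul, smul_eq_mul, sum_add_distrib,
      ← mul_sum, hz.2, hz'.2]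
    linarith
  have hsingle : ∀ y ∈ B, ∀ l, (Pi.single l y : L → V) ∈ Z := by
    intro y hy l
    refine ⟨fun l' => ?_, ?_⟩
    · rw [Pi.single_apply]
      split_ifs
      · exact mem_cn hy
      · exact H.lat.zero
    · rw [sum_eq_single l (fun l' _ h' => by rw [Pi.single_eq_of_ne h', map_zero]) (by simp),
        Pi.single_eq_same, H.one hy]
  obtain ⟨_, ⟨g, rfl⟩, hg⟩ := minimax hZc hZv (by
      obtain ⟨y, hy⟩ := H.lat.ne
      exact ⟨_, hsingle y hy (Classical.arbitrary L)⟩) (𝓕 := Set.range F) (by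
      rintro _ ⟨g, rfl⟩ _ ⟨g', rfl⟩ a b ha hb hab
      refine ⟨a • g + b • g', ?_⟩
      ext1 z
      simp only [ContinuousLinearMap.add_apply, ContinuousLinearMap.smul_apply, hF2,
        Pi.add_apply, Pi.smul_apply, smul_eq_mul, sum_add_distrib, ← mul_sum]
      linear_combination (∑ l, u l (z l)) * hab) (by
      intro z hz
      by_cases hw : ∃ j, ∑ l, M l j • z l ≠ 0
      · obtain ⟨j, hj⟩ := hw
        obtain ⟨f, hf⟩ := H.sep _ hj
        refine ⟨_, ⟨Pi.single j (((∑ l, u l (z l) - 1) / f (∑ l, M l j • z l)) • f), rfl⟩, ?_⟩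
        rw [hF2, sum_eq_single j (fun j' _ h' => by rw [Pi.single_eq_of_ne h']; rfl) (by simp),
          Pi.single_eq_same, ContinuousLinearMap.smul_apply, smul_eq_mul, div_mul_cancel₀ _ hf]
        linarith
      · push Not at hw
        refine ⟨_, ⟨0, rfl⟩, ?_⟩
        rw [hF2]
        simp only [Pi.zero_apply, ContinuousLinearMap.zero_apply, sum_const_zero, zero_sub,
          neg_lt_zero]
        obtain ⟨T, _, q, γ, h1, h2, h3, h4⟩ := H.lat.shen hz.1 (fun j l => M l j) univ
          fun j _ => hw j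
        choose c hc y hy e using h1
        choose s hs using fun t => hp (y t) (hy t)
        have e1 : ∀ (f : V →L[ℝ] ℝ) l, f (z l) = ∑ t, γ l t * c t * f (y t) := by
          intro f l
          rw [h3 l, map_sum]
          exact sum_congr rfl fun t _ => by
            rw [e t, map_smul, map_smul, smul_eq_mul, smul_eq_mul, mul_assoc]
        have e2 : ∑ l, ∑ t, γ l t * c t * ∑ j, M l j * s t j = 0 := by
          rw [sum_comm]
          refine sum_eq_zero fun t _ => ?_
          simp only [mul_sum]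
          rw [sum_comm]
          refine sum_eq_zero fun j _ => ?_
          have := congrArg (· * (c t * s t j)) (h4 j (mem_univ _) t)
          simp only [sum_mul, zero_mul] at this
          rw [← this]
          exact sum_congr rfl fun l _ => by ring
        have e3 : ∃ l t, 0 < γ l t * c t := by
          by_contra hn
          push Not at hn
          have h5 := hz.2
          rw [sum_eq_zero fun l _ => by
            rw [e1 h l]
            exact sum_eq_zero fun t _ => by
              rw [le_antisymm (hn l t) (mul_nonneg (h2 l t) (hc t)), zero_mul]] at h5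
          exact zero_ne_one h5
        obtain ⟨l0, t0, h0⟩ := e3
        have hle : ∀ l t, γ l t * c t * ∑ j, M l j * s t j ≤ γ l t * c t * u l (y t) :=
          fun l t => mul_le_mul_of_nonneg_left (hs t l).le (mul_nonneg (h2 l t) (hc t))
        rw [← e2]
        simp only [e1]
        exact sum_lt_sum (fun l _ => sum_le_sum fun t _ => hle l t) ⟨l0, mem_univ _,
          sum_lt_sum (fun t _ => hle l0 t) ⟨t0, mem_univ _,
            mul_lt_mul_of_pos_left (hs t0 l0) h0⟩⟩)
  refine ⟨g, fun y hy l => ?_⟩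
  have h1 := hg _ (hsingle y hy l)
  rw [hF, sum_eq_single l (fun l' _ h' => by simp [Pi.single_eq_of_ne h']) (by simp),
    Pi.single_eq_same] at h1
  linarith

/-- approximate factorisation through a finite simplex -/
theorem Base.factor (H : Base B h) {I : Type} [Fintype I] (f : I → V →L[ℝ] ℝ) {ε : ℝ}
    (hε : 0 < ε) : ∃ (N : ℕ) (x : Fin N → V) (g : Fin N → V →L[ℝ] ℝ), 0 < N ∧ (∀ j, x j ∈ B) ∧
      (∀ y ∈ B, ∀ j, 0 ≤ g j y) ∧ (∀ y ∈ B, ∑ j, g j y = 1) ∧
      ∀ y ∈ B, ∀ i, |∑ j, f i (x j) * g j y - f i y| ≤ ε := by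
  classical
  obtain ⟨s, hs⟩ := H.comp.elim_finite_subcover
    (fun b : B => {y | ∀ i, |f i b.1 - f i y| < ε / 2}) (fun b => by
      rw [Set.setOf_forall]
      exact isOpen_iInter_of_finite fun i => isOpen_lt (by fun_prop) continuous_const)
    (fun y hy => Set.mem_iUnion.2 ⟨⟨y, hy⟩, fun i => by simpa using hε⟩)
  set N := Fintype.card s with hN
  let e : Fin N ≃ s := (Fintype.equivFin s).symm
  let x : Fin N → V := fun j => (e j).1.1
  have hx : ∀ y ∈ B, ∃ j, ∀ i, |f i (x j) - f i y| < ε / 2 := by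
    intro y hy
    obtain ⟨b, hb, h1⟩ := Set.mem_iUnion₂.1 (hs hy)
    refine ⟨e.symm ⟨b, hb⟩, fun i => ?_⟩
    simp only [x, Equiv.apply_symm_apply]
    exact h1 i
  have hN0 : 0 < N := by
    obtain ⟨y, hy⟩ := H.lat.ne
    obtain ⟨j, -⟩ := hx y hy
    exact j.pos
  have hNr : (0 : ℝ) < N := by exact_mod_cast hN0
  have : Nonempty (Fin N) := ⟨⟨0, hN0⟩⟩
  let c : I → Fin N → ℝ := fun i j => f i (x j)
  let cb : I → ℝ := fun i => (∑ j, c i j) / N
  let M : Fin N ⊕ (I × Bool) → Fin N → ℝ := Sum.elim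
    (fun j k => 1 / N - if j = k then 1 else 0)
    (fun p k => (if p.2 then 1 else -1) * (c p.1 k - cb p.1))
  let u : Fin N ⊕ (I × Bool) → V →L[ℝ] ℝ := Sum.elim (fun _ => (1 / N : ℝ) • h)
    (fun p => ε • h + (if p.2 then (1 : ℝ) else -1) • (f p.1 - cb p.1 • h))
  have hM1 : ∀ j (t : Fin N → ℝ), ∑ k, M (Sum.inl j) k * t k = (∑ k, t k) / N - t j := by
    intro j t
    simp only [M, Sum.elim_inl, sub_mul, sum_sub_distrib, ite_mul, one_mul, zero_mul, sum_ite_eq,
      mem_univ, if_true, ← mul_sum]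
    ring
  have hM2 : ∀ p (t : Fin N → ℝ), ∑ k, M (Sum.inr p) k * t k =
      (if p.2 then 1 else -1) * (∑ k, c p.1 k * t k - cb p.1 * ∑ k, t k) := by
    intro p t
    simp only [M, Sum.elim_inr, mul_assoc, ← mul_sum, sub_mul, sum_sub_distrib]
  have hu1 : ∀ j, ∀ y ∈ B, u (Sum.inl j) y = 1 / N := by
    intro j y hy
    simp [u, H.one hy]
  have hu2 : ∀ p, ∀ y ∈ B, u (Sum.inr p) y =
      ε + (if p.2 then 1 else -1) * (f p.1 y - cb p.1) := by
    intro p y hy
    simp only [u, Sum.elim_inr, ContinuousLinearMap.add_apply, ContinuousLinearMap.smul_apply,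
      ContinuousLinearMap.sub_apply, H.one hy, smul_eq_mul, mul_one]
  obtain ⟨C, hC0, hC⟩ : ∃ C : ℝ, 0 < C ∧ ∀ i j, |cb i - c i j| ≤ C := by
    refine ⟨1 + ∑ i, ∑ j, |cb i - c i j|, by positivity, fun i j => ?_⟩
    have h1 := single_le_sum (f := fun j => |cb i - c i j|) (fun j _ => abs_nonneg _) (mem_univ j)
    have h2 := single_le_sum (f := fun i => ∑ j, |cb i - c i j|)
      (fun i _ => sum_nonneg fun j _ => abs_nonneg _) (mem_univ i)
    linarith
  obtain ⟨w, hw⟩ := H.select M u (by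
    intro y hy
    obtain ⟨j, hj⟩ := hx y hy
    let θ : ℝ := min (1 / 2) (ε / (2 * C))
    have hθ0 : 0 < θ := lt_min (by norm_num) (by positivity)
    have hθ1 : θ ≤ 1 / 2 := min_le_left _ _
    have hθ2 : θ * C ≤ ε / 2 := by
      have := min_le_right (1 / 2 : ℝ) (ε / (2 * C))
      calc θ * C ≤ ε / (2 * C) * C := by gcongr
        _ = ε / 2 := by field_simp
    refine ⟨fun k => if k = j then 1 - θ else 0, ?_⟩
    rintro (k | p)
    · rw [hM1, hu1 k y hy]
      simp only [sum_ite_eq', mem_univ, if_true]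
      have h1 : (1 - θ) / N < 1 / N := div_lt_div_of_pos_right (by linarith) hNr
      split_ifs <;> linarith
    · rw [hM2, hu2 p y hy]
      simp only [sum_ite_eq', mem_univ, if_true, mul_ite, mul_zero]
      have h1 := abs_lt.1 (hj p.1)
      have h2 : |θ * (cb p.1 - c p.1 j)| ≤ ε / 2 := by
        rw [abs_mul, abs_of_pos hθ0]
        exact (mul_le_mul_of_nonneg_left (hC p.1 j) hθ0.le).trans hθ2
      have h3 := abs_le.1 h2
      have h4 : c p.1 j = f p.1 (x j) := rfl
      split_ifs <;> nlinarith)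
  refine ⟨N, x, fun j => (1 / N : ℝ) • h + w j - (1 / N : ℝ) • ∑ k, w k, hN0,
    fun j => (e j).1.2, ?_, ?_, ?_⟩
  all_goals
    have hg : ∀ y ∈ B, ∀ j, ((1 / N : ℝ) • h + w j - (1 / N : ℝ) • ∑ k, w k) y =
        1 / N + w j y - (∑ k, w k y) / N := by
      intro y hy j
      simp only [ContinuousLinearMap.add_apply, ContinuousLinearMap.smul_apply,
        ContinuousLinearMap.sub_apply, H.one hy, smul_eq_mul, mul_one,
        ContinuousLinearMap.sum_apply]
      ring
  · intro y hy j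
    have h1 := hw y hy (Sum.inl j)
    rw [hM1, hu1 j y hy] at h1
    rw [hg y hy]; linarith
  · intro y hy
    simp only [hg y hy, sum_sub_distrib, sum_add_distrib, sum_const, card_univ, Fintype.card_fin,
      nsmul_eq_mul]
    field_simp
    ring
  · intro y hy i
    have h1 := hw y hy (Sum.inr (i, true))
    have h2 := hw y hy (Sum.inr (i, false))
    rw [hM2, hu2 _ y hy] at h1 h2
    simp only [if_true, one_mul, Bool.false_eq_true, if_false] at h1 h2
    have h3 : ∑ j, f i (x j) * ((1 / N : ℝ) • h + w j - (1 / N : ℝ) • ∑ k, w k) y =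
        cb i + (∑ k, c i k * w k y - cb i * ∑ k, w k y) := by
      simp only [hg y hy, mul_sub, mul_add, sum_sub_distrib, sum_add_distrib, ← sum_mul, cb, c]
      ring
    rw [h3, abs_le]
    constructor <;> linarith

end Vale.Agent.N070X
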