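import Vale.Agent.N070X.Traces

/-! Simplicity, separability and dimension of the model algebra. -/

set_option linter.all false

namespace Vale.Agent.N070X.Model

open scoped InnerProductSpace ComplexOrder
open Filter Topology Vale.Agent.P070 Vale.Agent.N070

variable {C : ℕ → Type} [∀ j, AddCommGroup (C j)] [∀ j, Fintype (C j)]
  {X : ℕ → Type} [∀ j, Fintype (X j)] {xs : Sys C X}

/-- the cell of level `k` through a point -/
def cyl (xs : Sys C X) (F0 : Om C) (k : ℕ) : Set (Om C) :=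
  {F | res k F = res k F0} ∩ {F | xs.yy k F = xs.yy k F0}

theorem lev_cyl (F0 : Om C) (k : ℕ) : Lev xs k (cyl xs F0 k) := (lev_res k _).inter (lev_yy k _)

theorem excise (F0 : Om C) {y : Op (L2 (Om C))} (hy : y ∈ Submodule.span ℂ (W xs)) :
    ∃ k0, ∀ k, k0 ≤ k →
      op 0 (cyl xs F0 k) * y * op 0 (cyl xs F0 k) = dg F0 y • op 0 (cyl xs F0 k) := by
  induction hy using Submodule.span_induction with
  | mem w hw =>
    obtain ⟨k0, G, s, hG, hs, rfl⟩ := hw
    refine ⟨k0, fun k hk => ?_⟩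
    rw [op_mul, op_mul, dg_op, zero_add, add_zero]
    by_cases hG0 : G = 0
    · subst hG0
      have hiff : ∀ F ∈ cyl xs F0 k, F ∈ s ↔ F0 ∈ s := by
        intro F hF
        have h1 := res_eq_iff.1 hF.1
        exact ⟨(hs.mono hk) F F0 h1 hF.2,
          (hs.mono hk) F0 F (fun i hi => (h1 i hi).symm) hF.2.symm⟩
      by_cases h0 : F0 ∈ s
      · rw [if_pos ⟨rfl, h0⟩, one_smul]
        congr 1
        ext F
        simp only [add_zero, Set.mem_inter_iff, Set.mem_setOf_eq]
        exact ⟨fun h => h.2, fun h => ⟨⟨h, (hiff F h).2 h0⟩, h⟩⟩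
      · rw [if_neg (fun h => h0 h.2), zero_smul, ← op_empty 0]
        congr 1
        ext F
        simp only [add_zero, Set.mem_inter_iff, Set.mem_setOf_eq, Set.mem_empty_iff_false,
          iff_false]
        exact fun h => h0 ((hiff F h.2).1 h.1.2)
    · rw [if_neg (fun h => hG0 h.1), zero_smul, ← op_empty G]
      congr 1
      ext F
      simp only [Set.mem_inter_iff, Set.mem_setOf_eq, Set.mem_empty_iff_false, iff_false]
      rintro ⟨⟨h1, -⟩, h2⟩
      apply hG0
      have h3 : res k (F + G) = res k F := h2.1.trans h1.1.symm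
      rw [res_add, add_eq_left] at h3
      rw [← ext_res (hG.mono hk), h3]
      funext i
      simp [ext]
  | zero => exact ⟨0, fun k _ => by simp⟩
  | add a b _ _ ha hb =>
    obtain ⟨k1, h1⟩ := ha
    obtain ⟨k2, h2⟩ := hb
    refine ⟨max k1 k2, fun k hk => ?_⟩
    rw [mul_add, add_mul, h1 k (le_of_max_le_left hk), h2 k (le_of_max_le_right hk), map_add,
      add_smul]
  | smul c a _ ha =>
    obtain ⟨k1, h1⟩ := ha
    refine ⟨k1, fun k hk => ?_⟩
    rw [mul_smul_comm, smul_mul_assoc, h1 k hk, map_smul, smul_smul, smul_eq_mul]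

theorem nontrivial_DD : Nontrivial (DD xs) := by
  refine ⟨⟨1, 0, fun h => ?_⟩⟩
  have h1 : (1 : Op (L2 (Om C))) = 0 := congrArg Subtype.val h
  have h2 := dg_one (0 : Om C)
  rw [h1, map_zero] at h2
  exact zero_ne_one h2

theorem yy_mem_of {I : Submodule ℂ (DD xs)}
    (hid : ∀ a : DD xs, ∀ b ∈ I, a * b ∈ I ∧ b * a ∈ I) {n : ℕ} {F0 : Om C}
    (hrI : E xs 0 (cyl xs F0 n) ∈ I) : E xs 0 {F | xs.yy n F = xs.yy n F0} ∈ I := by
  have hR : Lev xs n (cyl xs F0 n) := lev_cyl F0 n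
  rw [← E_sum (supp_zero n) (lev_yy n _)
    (s := fun b : Hd C n => {F | F + ext n b ∈ cyl xs F0 n})
    (fun b => hR.shift (supp_ext _ b)) ?_ ?_]
  · refine I.sum_mem fun b _ => ?_
    have h1 := (conj_eq (supp_ext _ b) hR).1
    have h2 : E xs (-ext n b) (cyl xs F0 n) =
        E xs 0 (cyl xs F0 n) * E xs (-ext n b) Set.univ := by
      rw [E_mul (supp_zero _) hR (supp_ext _ b).neg (lev_univ _)]
      simp
    rw [← h1, h2]
    exact (hid _ _ (hid _ _ hrI).2).1
  · intro F hF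
    refine ⟨res n F0 - res n F, ⟨?_, ?_⟩, fun b hb => ?_⟩
    · show res n (F + ext n _) = _
      rw [res_add, res_ext]; abel
    · show xs.yy n (F + ext n _) = _
      rw [yy_shift xs (supp_ext n _)]; exact hF
    · have h2 : res n (F + ext n b) = res n F0 := hb.1
      rw [res_add, res_ext] at h2
      rw [← h2]; abel
  · intro b F hF
    have h2 : xs.yy n (F + ext n b) = xs.yy n F0 := hF.2
    rwa [yy_shift xs (supp_ext n _)] at h2

theorem one_mem_of {I : Submodule ℂ (DD xs)}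
    (hid : ∀ a : DD xs, ∀ b ∈ I, a * b ∈ I ∧ b * a ∈ I) {n : ℕ} {F0 : Om C}
    (hrI : E xs 0 (cyl xs F0 n) ∈ I) : (1 : DD xs) ∈ I := by
  have h1 := yy_mem_of hid hrI
  rw [← E_univ, ← E_sum (supp_zero (n + 1)) (lev_univ _)
    (s := fun y => {F | xs.yy (n + 1) F = y}) (fun y => lev_yy _ y)
    (fun F _ => ⟨xs.yy (n + 1) F, rfl, fun y hy => hy.symm⟩) (fun _ => Set.subset_univ _)]
  refine I.sum_mem fun y _ => ?_
  obtain ⟨F1, rfl⟩ := exists_pt (xs := xs) (n + 1) y
  obtain ⟨c, hc⟩ := xs.surj n (xs.yy (n + 1) F1) (xs.yy n F0)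
  have h2 : xs.yy (n + 1) (F1 + Pi.single n (c - F1 n)) = xs.yy (n + 1) F1 :=
    yy_shift xs (supp_single n _) F1
  rw [← h2]
  refine yy_mem_of hid ?_
  have h3 := (hid (E xs 0 (cyl xs (F1 + Pi.single n (c - F1 n)) (n + 1))) _ h1).1
  rw [E_mul (supp_zero _) (lev_cyl _ _) (supp_zero _) (lev_yy n _).succ] at h3
  convert h3 using 2
  · simp
  · refine (Set.inter_eq_self_of_subset_left fun F hF => ?_).symm
    show xs.yy n (F + 0) = xs.yy n F0
    rw [add_zero, xs.rc, res_eq_iff.1 hF.1 n (by omega), hF.2, h2, ← hc]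
    simp

theorem exists_cyl (x : DD xs) (F0 : Om C) {t : ℝ}
    (ht0 : 0 < t) (hdg : dg F0 (x : Op (L2 (Om C))) = t) :
    ∃ n : ℕ, ‖E xs 0 (cyl xs F0 n) * x * E xs 0 (cyl xs F0 n) -
      (t : ℂ) • E xs 0 (cyl xs F0 n)‖ < t := by
  obtain ⟨y, hy, hxy⟩ := Metric.mem_closure_iff.1 (DD_closure x.2) (t / 2) (by positivity)
  rw [dist_eq_norm] at hxy
  obtain ⟨k, hk⟩ := excise F0 hy
  have hex := hk k le_rfl
  refine ⟨k, ?_⟩
  have hrv : (E xs 0 (cyl xs F0 k) : Op (L2 (Om C))) = op 0 (cyl xs F0 k) :=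
    E_val (supp_zero _) (lev_cyl F0 k)
  have h1 := excise_est (x := (x : Op (L2 (Om C)))) (op_norm_le 0 _) hex (t := (t : ℂ)) (by
    rw [← hdg, ← map_sub, norm_sub_rev]
    exact dg_norm_le _ _)
  rw [← hrv] at h1
  have h2 : ‖E xs 0 (cyl xs F0 k) * x * E xs 0 (cyl xs F0 k) - (t : ℂ) • E xs 0 (cyl xs F0 k)‖ ≤
      2 * ‖(x : Op (L2 (Om C))) - y‖ := h1
  exact h2.trans_lt (by linarith)

theorem simple : Naimark.IsSimpleAlg (DD xs) := by
  refine ⟨nontrivial_DD, fun I hI hid => ?_⟩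
  by_cases h0 : I = ⊥
  · exact Or.inl h0
  right
  obtain ⟨a, haI, ha0⟩ := (Submodule.ne_bot_iff I).1 h0
  obtain ⟨F0, hF0⟩ : ∃ F0, (a : Op (L2 (Om C))) (dl F0) ≠ 0 := by
    by_contra hc
    push Not at hc
    exact ha0 (Subtype.ext (eq_zero_of_dl hc))
  have hxI : star a * a ∈ I := (hid (star a) a haI).1
  have ht0 : 0 < ‖(a : Op (L2 (Om C))) (dl F0)‖ ^ 2 := by positivity
  obtain ⟨n, hb⟩ := exists_cyl (star a * a) F0 ht0 (dg_star_mul F0 _)
  have hrr : E xs 0 (cyl xs F0 n) * E xs 0 (cyl xs F0 n) = E xs 0 (cyl xs F0 n) := by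
    rw [E_mul (supp_zero _) (lev_cyl F0 n) (supp_zero _) (lev_cyl F0 n)]
    simp
  have h1I := one_mem_of hid (mem_of_excise hid hxI hrr ht0 hb)
  rw [eq_top_iff]
  intro b _
  have := (hid b 1 h1I).1
  rwa [mul_one] at this

theorem separable : TopologicalSpace.SeparableSpace (DD xs) := by
  have hW : (W xs).Countable := by
    refine (Set.countable_iUnion fun k : ℕ => Set.countable_range
      (fun p : (Hd C k) × Set ((Hd C k) × X k) =>
        op (ext k p.1) {F | (res k F, xs.yy k F) ∈ p.2})).mono ?_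
    rintro _ ⟨k, G, s, hG, hs, rfl⟩
    refine Set.mem_iUnion.2 ⟨k, (res k G, (fun F => (res k F, xs.yy k F)) '' s), ?_⟩
    show op (ext k (res k G)) _ = op G s
    rw [ext_res hG]
    congr 1
    ext F
    constructor
    · rintro ⟨F', hF', h⟩
      exact hs F' F (res_eq_iff.1 (congrArg Prod.fst h)) (congrArg Prod.snd h) hF'
    · exact fun h => ⟨F, h, rfl⟩
  exact (isSeparable_adjoin hW).closure.separableSpace

theorem infinite_dim [∀ j, Nontrivial (C j)] : ¬ FiniteDimensional ℂ (DD xs) := by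
  intro hfin
  choose c hc using fun j => exists_ne (0 : C j)
  have hli : LinearIndependent ℂ fun j : ℕ => E xs 0 {F | F j = c j} := by
    refine LinearIndependent.of_pairwise_dual_eq_zero_one _ (fun i =>
      (dg (Pi.single i (c i))).comp (DD xs).toSubalgebra.toSubmodule.subtype) ?_ ?_
    · intro i j hij
      show dg _ (E xs 0 {F | F j = c j} : Op (L2 (Om C))) = 0
      rw [E_val (supp_zero _) (lev_coord j _), dg_op, if_neg]
      rintro ⟨-, h⟩
      have h1 : (Pi.single i (c i) : Om C) j = c j := h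
      rw [Pi.single_eq_of_ne (Ne.symm hij)] at h1
      exact hc j h1.symm
    · intro i
      show dg _ (E xs 0 {F | F i = c i} : Op (L2 (Om C))) = 1
      rw [E_val (supp_zero _) (lev_coord i _), dg_op, if_pos]
      exact ⟨rfl, Pi.single_eq_same _ _⟩
  exact Module.Finite.not_linearIndependent_of_infinite _ hli

end Vale.Agent.N070X.Model
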