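import Vale.Agent.N070X.Model

/-! Traces and simplicity of the model algebra. -/

set_option linter.all false

namespace Vale.Agent.N070X.Model

open scoped InnerProductSpace ComplexOrder
open Filter Topology Vale.Agent.P070 Vale.Agent.N070

variable {C : ℕ → Type} [∀ j, AddCommGroup (C j)] [∀ j, Fintype (C j)]
  {X : ℕ → Type} [∀ j, Fintype (X j)] {xs : Sys C X}

/-- tracial on the generators of level `n` -/
def TrL (n : ℕ) (ν : DD xs →ₗ[ℂ] ℂ) : Prop :=
  ∀ G s G' s', Supp n G → Lev xs n s → Supp n G' → Lev xs n s' →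
    ν (E xs G s * E xs G' s') = ν (E xs G' s' * E xs G s)

variable {n : ℕ} {ν : DD xs →ₗ[ℂ] ℂ}

theorem conj_eq {G : (Om C)} {s : Set (Om C)} (hG : Supp n G) (hs : Lev xs n s) :
    E xs G Set.univ * E xs (-G) s = E xs 0 {F | F + G ∈ s} ∧
    E xs (-G) s * E xs G Set.univ = E xs 0 s := by
  rw [E_mul hG (lev_univ n) hG.neg hs, E_mul hG.neg hs hG (lev_univ n)]
  simp

theorem TrL.shift (h : TrL n ν) {G : (Om C)} {s : Set (Om C)} (hG : Supp n G) (hs : Lev xs n s) :
    ν (E xs 0 {F | F + G ∈ s}) = ν (E xs 0 s) := by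
  rw [← (conj_eq hG hs).1, h _ _ _ _ hG (lev_univ n) hG.neg hs, (conj_eq hG hs).2]

theorem TrL.avg (h : TrL n ν) {Γ : Type} [Fintype Γ] {g : Γ → (Om C)} (hg : ∀ γ, Supp n (g γ))
    {s t : Set (Om C)} (hs : Lev xs n s) (ht : Lev xs n t)
    (h1 : ∀ F ∈ t, ∃! γ, F + g γ ∈ s) (h2 : ∀ γ F, F + g γ ∈ s → F ∈ t) :
    (Fintype.card Γ : ℂ) * ν (E xs 0 s) = ν (E xs 0 t) := by
  rw [← E_sum (supp_zero n) ht (s := fun γ => {F | F + g γ ∈ s}) (fun γ => hs.shift (hg γ)) h1 h2,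
    map_sum]
  simp only [h.shift (hg _) hs]
  rw [Finset.sum_const, Finset.card_univ, nsmul_eq_mul]

theorem TrL.off (h : TrL n ν) {G : (Om C)} {s : Set (Om C)} (hG : Supp n G) (hs : Lev xs n s)
    (hG0 : G ≠ 0) : ν (E xs G s) = 0 := by
  obtain ⟨i, hi⟩ : ∃ i, G i ≠ 0 := Function.ne_iff.1 hG0
  have hin : i + 1 ≤ n := by
    by_contra hc
    exact hi (hG i (by omega))
  have hc : ∀ c, Lev xs n {F : (Om C) | F i = c} := fun c => (lev_coord i c).mono hin
  rw [← E_sum hG hs (s := fun c => s ∩ {F | F i = c}) (fun c => hs.inter (hc c))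
    (fun F hF => ⟨F i, ⟨hF, rfl⟩, fun c hc => hc.2.symm⟩) (fun c => Set.inter_subset_left),
    map_sum]
  refine Finset.sum_eq_zero fun c _ => ?_
  have h1 := h _ _ _ _ (supp_zero n) (hc c) hG (hs.inter (hc c))
  rw [E_mul (supp_zero n) (hc c) hG (hs.inter (hc c)),
    E_mul hG (hs.inter (hc c)) (supp_zero n) (hc c)] at h1
  have e1 : ({F : (Om C) | F i = c} ∩ {F | F + 0 ∈ s ∩ {F | F i = c}}) = s ∩ {F | F i = c} := by
    ext F; simp only [add_zero, Set.mem_inter_iff, Set.mem_setOf_eq]; tauto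
  have e2 : (s ∩ {F : (Om C) | F i = c} ∩ {F | F + G ∈ {F : (Om C) | F i = c}}) = ∅ := by
    ext F
    simp only [Set.mem_inter_iff, Set.mem_setOf_eq, Pi.add_apply, Set.mem_empty_iff_false,
      iff_false, not_and]
    rintro ⟨-, h2⟩ h3
    rw [h2] at h3
    exact hi (by simpa using h3)
  rw [e1, e2, zero_add, E_empty, map_zero] at h1
  exact h1

/-- the weights -/
noncomputable def mu (ν : DD xs →ₗ[ℂ] ℂ) (k : ℕ) (y : X k) : ℂ := ν (E xs 0 {F | xs.yy k F = y})

theorem cardC_ne (k : ℕ) : (Fintype.card (C k) : ℂ) ≠ 0 := by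
  exact_mod_cast Fintype.card_ne_zero

theorem TrL.coord (h : TrL n ν) {k : ℕ} (hk : k + 1 ≤ n) {t : Set (Om C)} (ht : Lev xs n t)
    (c0 : C k) (hinv : ∀ (c : C k) F, F + Pi.single k c ∈ t ↔ F ∈ t) :
    ν (E xs 0 (t ∩ {F | F k = c0})) = (Fintype.card (C k) : ℂ)⁻¹ * ν (E xs 0 t) := by
  have h1 := h.avg (Γ := C k) (g := fun c => Pi.single k c)
    (fun c => (supp_single k c).mono hk) (ht.inter ((lev_coord k c0).mono hk)) ht ?_ ?_
  · rw [← h1, ← mul_assoc, inv_mul_cancel₀ (cardC_ne k), one_mul]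
  · intro F hF
    refine ⟨c0 - F k, ⟨(hinv _ _).2 hF, ?_⟩, fun c hc => ?_⟩
    · simp
    · have h2 : F k + c = c0 := by simpa using hc.2
      rw [← h2]; abel
  · intro c F hF
    exact (hinv c F).1 hF.1

open Classical in
/-- the transition weights -/
noncomputable def rho (xs : Sys C X) (k : ℕ) (y : X k) (y' : X (k + 1)) : ℝ :=
  ((Finset.univ.filter fun c => xs.s k c y' = y).card : ℝ) / Fintype.card (C k)

theorem rho_nonneg (k : ℕ) (y : X k) (y' : X (k + 1)) : 0 ≤ rho xs k y y' := by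
  rw [rho]; positivity

theorem rho_sum (k : ℕ) (y' : X (k + 1)) : ∑ y, rho xs k y y' = 1 := by
  classical
  simp only [rho]
  rw [← Finset.sum_div, ← Nat.cast_sum, ← Finset.card_eq_sum_card_fiberwise
    (s := Finset.univ) (t := Finset.univ) (f := fun c => xs.s k c y') (by simp), Finset.card_univ]
  exact div_self (by exact_mod_cast Fintype.card_ne_zero)

theorem TrL.rec' (h : TrL n ν) {k : ℕ} (hk : k + 1 ≤ n) (y : X k) :
    mu ν k y = ∑ y', (rho xs k y y' : ℂ) * mu ν (k + 1) y' := by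
  classical
  have hA : ∀ p : X (k + 1) × C k, Lev xs n ({F | xs.yy (k + 1) F = p.1} ∩ {F | F k = p.2}) :=
    fun p => ((lev_yy (k + 1) p.1).mono hk).inter ((lev_coord k p.2).mono hk)
  have hy : Lev xs n {F | xs.yy k F = y} := (lev_yy k y).mono (Nat.le_of_succ_le hk)
  rw [mu, ← E_sum (supp_zero n) hy (s := fun p : X (k + 1) × C k =>
      {F | xs.yy k F = y} ∩ ({F | xs.yy (k + 1) F = p.1} ∩ {F | F k = p.2}))
    (fun p => hy.inter (hA p))
    (fun F hF => ⟨(xs.yy (k + 1) F, F k), ⟨hF, rfl, rfl⟩, fun p hp =>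
      Prod.ext hp.2.1.symm hp.2.2.symm⟩) (fun c => Set.inter_subset_left), map_sum,
    Fintype.sum_prod_type]
  refine Finset.sum_congr rfl fun y' _ => ?_
  have h1 : ∀ c : C k, ν (E xs 0 ({F | xs.yy k F = y} ∩
      ({F | xs.yy (k + 1) F = y'} ∩ {F | F k = c}))) =
      if xs.s k c y' = y then (Fintype.card (C k) : ℂ)⁻¹ * mu ν (k + 1) y' else 0 := by
    intro c
    split_ifs with hc
    · rw [mu, ← h.coord hk ((lev_yy (k + 1) y').mono hk) c fun c F => by
        simp only [Set.mem_setOf_eq]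
        rw [yy_shift xs (supp_single k c)]]
      congr 2
      refine Set.inter_eq_self_of_subset_right fun F hF => ?_
      show xs.yy k F = y
      rw [xs.rc, hF.1, hF.2, hc]
    · have : {F | xs.yy k F = y} ∩ ({F | xs.yy (k + 1) F = y'} ∩ {F : Om C | F k = c}) = ∅ := by
        ext F
        simp only [Set.mem_inter_iff, Set.mem_setOf_eq, Set.mem_empty_iff_false, iff_false]
        rintro ⟨a, b, d⟩
        exact hc (by rw [← a, xs.rc k F, b, d])
      rw [this, E_empty, map_zero]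
  simp only [h1]
  rw [← Finset.sum_filter, Finset.sum_const, nsmul_eq_mul, rho]
  push_cast
  ring

theorem TrL.zero (h : TrL n ν) (h0 : ∀ y, mu ν n y = 0) {G : (Om C)} {s : Set (Om C)}
    (hG : Supp n G) (hs : Lev xs n s) : ν (E xs G s) = 0 := by
  by_cases hG0 : G = 0
  swap
  · exact h.off hG hs hG0
  subst hG0
  have hA : ∀ p : (Hd C n) × X n, Lev xs n ({F | res n F = p.1} ∩ {F | xs.yy n F = p.2}) :=
    fun p => (lev_res n p.1).inter (lev_yy n p.2)
  have hA0 : ∀ p : (Hd C n) × X n, ν (E xs 0 ({F | res n F = p.1} ∩ {F | xs.yy n F = p.2})) = 0 := by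
    intro p
    have h1 := h.avg (Γ := (Hd C n)) (g := ext n) (supp_ext n) (hA p) (lev_yy n p.2) ?_ ?_
    · have h2 := h0 p.2
      rw [mu] at h2
      rw [h2] at h1
      exact (mul_eq_zero.1 h1).resolve_left (by exact_mod_cast Fintype.card_ne_zero)
    · intro F hF
      refine ⟨p.1 - res n F, ⟨?_, ?_⟩, fun b hb => ?_⟩
      · show res n (F + ext n (p.1 - res n F)) = p.1
        rw [res_add, res_ext]; abel
      · show xs.yy n (F + ext n (p.1 - res n F)) = p.2
        rw [yy_shift xs (supp_ext n _)]; exact hF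
      · have h2 : res n (F + ext n b) = p.1 := hb.1
        rw [res_add, res_ext] at h2
        rw [← h2]; abel
    · intro b F hF
      have h2 : xs.yy n (F + ext n b) = p.2 := hF.2
      rwa [yy_shift xs (supp_ext n _)] at h2
  rw [← E_sum (supp_zero n) hs (s := fun p : (Hd C n) × X n =>
      s ∩ ({F | res n F = p.1} ∩ {F | xs.yy n F = p.2})) (fun p => hs.inter (hA p))
    (fun F hF => ⟨(res n F, xs.yy n F), ⟨hF, rfl, rfl⟩, fun p hp =>
      Prod.ext hp.2.1.symm hp.2.2.symm⟩) (fun c => Set.inter_subset_left), map_sum]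
  refine Finset.sum_eq_zero fun p _ => ?_
  by_cases hne : (s ∩ ({F | res n F = p.1} ∩ {F | xs.yy n F = p.2})).Nonempty
  · obtain ⟨F0, hF0, a1, a2⟩ := hne
    have : s ∩ ({F | res n F = p.1} ∩ {F | xs.yy n F = p.2}) =
        {F | res n F = p.1} ∩ {F | xs.yy n F = p.2} := by
      refine Set.inter_eq_self_of_subset_right fun F hF => ?_
      exact hs F0 F (res_eq_iff.1 (a1.trans hF.1.symm)) (a2.trans hF.2.symm) hF0
    rw [this, hA0]
  · rw [Set.not_nonempty_iff_eq_empty.1 hne, E_empty, map_zero]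

theorem mu_sum (ν : DD xs →ₗ[ℂ] ℂ) (k : ℕ) : ∑ y, mu ν k y = ν 1 := by
  rw [← E_univ, ← E_sum (supp_zero k) (lev_univ k) (s := fun y => {F | xs.yy k F = y})
    (fun y => lev_yy k y) (fun F _ => ⟨xs.yy k F, rfl, fun y hy => hy.symm⟩)
    (fun _ => Set.subset_univ _), map_sum]
  rfl

theorem contract {k : ℕ} (a : X (k + 1) → ℂ) :
    ∑ y, ‖∑ y', (rho xs k y y' : ℂ) * a y'‖ ≤ ∑ y', ‖a y'‖ := by
  refine (Finset.sum_le_sum fun y _ => norm_sum_le _ _).trans ?_
  rw [Finset.sum_comm]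
  refine le_of_eq (Finset.sum_congr rfl fun y' _ => ?_)
  simp only [norm_mul, Complex.norm_real, Real.norm_of_nonneg (rho_nonneg _ _ _)]
  rw [← Finset.sum_mul, rho_sum, one_mul]

/-- a continuous tracial functional with small weights vanishes -/
theorem eq_zero_of_mu (hc : Continuous ν) (h : ∀ n, TrL n ν)
    (hlim : Tendsto (fun k => ∑ y, ‖mu ν k y‖) atTop (𝓝 0)) : ν = 0 := by
  have hmono : Monotone fun k => ∑ y, ‖mu ν k y‖ := by
    refine monotone_nat_of_le_succ fun k => ?_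
    simp only [(h (k + 1)).rec' (k := k) le_rfl]
    exact contract _
  have h0 : ∀ k y, mu ν k y = 0 := by
    intro k y
    have h3 := hmono.ge_of_tendsto hlim k
    have h4 := Finset.single_le_sum (f := fun y => ‖mu ν k y‖) (fun y _ => norm_nonneg _)
      (Finset.mem_univ y)
    exact norm_le_zero_iff.1 (h4.trans h3)
  exact ext_W hc fun k G s hG hs => (h k).zero (h0 k) hG hs

/-! ### the extreme traces -/

noncomputable def phi (xs : Sys C X) (n : ℕ) (j : Om C) : DD xs →ₗ[ℂ] ℂ :=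
  (Fintype.card ((Hd C n)) : ℂ)⁻¹ • ∑ a : (Hd C n),
    (dg (ext n a + j)).comp (DD xs).toSubalgebra.toSubmodule.subtype

theorem phi_apply (n : ℕ) (j : Om C) (T : DD xs) : phi xs n j T =
    (Fintype.card ((Hd C n)) : ℂ)⁻¹ * ∑ a : (Hd C n), dg (ext n a + j) (T : Op (L2 (Om C))) := by
  rw [phi, LinearMap.smul_apply, LinearMap.sum_apply]; rfl

theorem card_ne (n : ℕ) : (Fintype.card ((Hd C n)) : ℂ) ≠ 0 := by exact_mod_cast Fintype.card_ne_zero

theorem phi_const {n : ℕ} {j : Om C} {T : DD xs} {c : ℂ}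
    (h : ∀ a : (Hd C n), dg (ext n a + j) (T : Op (L2 (Om C))) = c) : phi xs n j T = c := by
  rw [phi_apply]
  simp only [h]
  rw [Finset.sum_const, Finset.card_univ, nsmul_eq_mul, ← mul_assoc, inv_mul_cancel₀ (card_ne n),
    one_mul]

theorem phi_state (n : ℕ) (j : Om C) : IsState (phi xs n j) := by
  refine ⟨phi_const fun a => dg_one _, fun T => ?_⟩
  rw [phi_apply]
  refine mul_nonneg ?_ (Finset.sum_nonneg fun a _ => ?_)
  · have : (Fintype.card ((Hd C n)) : ℂ)⁻¹ = (((Fintype.card ((Hd C n)) : ℝ)⁻¹ : ℝ) : ℂ) := by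
      push_cast; rfl
    rw [this]
    exact Complex.zero_le_real.2 (by positivity)
  · have : ((star T * T : DD xs) : Op (L2 (Om C))) = star (T : Op (L2 (Om C))) * T := rfl
    rw [this, dg_star_mul]
    exact Complex.zero_le_real.2 (by positivity)

theorem phi_trL (n : ℕ) (j : Om C) : TrL n (phi xs n j) := by
  intro G s G' s' hG hs hG' hs'
  rw [E_mul hG hs hG' hs', E_mul hG' hs' hG hs, phi_apply, phi_apply,
    E_val (hG.add hG') (hs.inter (hs'.shift hG)), E_val (hG'.add hG) (hs'.inter (hs.shift hG'))]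
  congr 1
  refine Fintype.sum_equiv (Equiv.addRight (res n G)) _ _ fun a => ?_
  rw [dg_op, dg_op]
  have e : ext n ((Equiv.addRight (res n G)) a) + j =
      ext n a + j + G := by
    rw [Equiv.coe_addRight, ext_add, ext_res hG]; abel
  rw [e]
  have hiff : (G + G' = 0 ∧ ext n a + j ∈ s ∩ {F | F + G ∈ s'}) ↔
      (G' + G = 0 ∧ ext n a + j + G ∈ s' ∩ {F | F + G' ∈ s}) := by
    simp only [Set.mem_inter_iff, Set.mem_setOf_eq]
    constructor
    · rintro ⟨a1, a2, a3⟩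
      refine ⟨by rw [add_comm, a1], a3, ?_⟩
      rwa [add_assoc _ G G', a1, add_zero]
    · rintro ⟨a1, a2, a3⟩
      rw [add_comm] at a1
      refine ⟨a1, ?_, a2⟩
      rwa [add_assoc _ G G', a1, add_zero] at a3
  by_cases hc : G + G' = 0 ∧ ext n a + j ∈ s ∩ {F | F + G ∈ s'}
  · rw [if_pos hc, if_pos (hiff.1 hc)]
  · rw [if_neg hc, if_neg (fun h => hc (hiff.2 h))]

open Classical in
theorem phi_mu (n : ℕ) (j : Om C) (y : X n) :
    mu (phi xs n j) n y = if xs.yy n j = y then 1 else 0 := by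
  refine phi_const fun a => ?_
  rw [E_val (supp_zero n) (lev_yy n y), dg_op]
  have h1 : xs.yy n (ext n a + j) = xs.yy n j := by
    rw [add_comm, yy_shift xs (supp_ext n a)]
  simp [h1]

theorem exists_pt (n : ℕ) (y : X n) : ∃ j : Om C, xs.yy n j = y := by
  obtain ⟨c, hc⟩ := xs.surj n (xs.yy (n + 1) 0) y
  refine ⟨0 + Pi.single n c, ?_⟩
  rw [xs.rc, yy_shift xs (supp_single n c), ← hc]
  simp

theorem exists_level (n : ℕ) (t : X n → ℝ) (h0 : ∀ y, 0 ≤ t y) (h1 : ∑ y, t y = 1) :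
    ∃ φ : DD xs →ₗ[ℂ] ℂ, IsState φ ∧ TrL n φ ∧ ∀ y, mu φ n y = t y := by
  classical
  choose J hJ using exists_pt (xs := xs) n
  refine ⟨∑ y, (t y : ℂ) • phi xs n (J y), ⟨?_, fun a => ?_⟩, ?_, fun y => ?_⟩
  · simp only [LinearMap.sum_apply, LinearMap.smul_apply, (phi_state _ _).1, smul_eq_mul, mul_one]
    exact_mod_cast h1
  · simp only [LinearMap.sum_apply, LinearMap.smul_apply, smul_eq_mul]
    exact Finset.sum_nonneg fun i _ =>
      mul_nonneg (Complex.zero_le_real.2 (h0 i)) ((phi_state _ _).2 a)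
  · intro G s G' s' hG hs hG' hs'
    simp only [LinearMap.sum_apply, LinearMap.smul_apply]
    exact Finset.sum_congr rfl fun i _ => by rw [phi_trL n _ _ _ _ _ hG hs hG' hs']
  · have : ∀ y', phi xs n (J y') (E xs 0 {F | xs.yy n F = y}) = if y' = y then 1 else 0 :=
      fun y' => by rw [← hJ y', ← phi_mu, hJ]; rfl
    simp only [mu, LinearMap.sum_apply, LinearMap.smul_apply, this, smul_eq_mul, mul_ite, mul_one,
      mul_zero, Finset.sum_ite_eq', Finset.mem_univ, if_true]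

/-- going down one level -/
theorem down {k : ℕ} (h : TrL (k + 1) ν ∨ ∃ n, k + 1 ≤ n ∧ TrL n ν) {t : X k → ℝ}
    {t' : X (k + 1) → ℝ} {a b : ℝ} (h1 : ∑ y, |∑ y', rho xs k y y' * t' y' - t y| ≤ a)
    (h2 : ∑ y', ‖mu ν (k + 1) y' - t' y'‖ ≤ b) : ∑ y, ‖mu ν k y - t y‖ ≤ a + b := by
  obtain ⟨n, hn, h⟩ : ∃ n, k + 1 ≤ n ∧ TrL n ν := h.elim (fun h => ⟨_, le_rfl, h⟩) id
  have h3 := contract (xs := xs) fun y' => mu ν (k + 1) y' - t' y'
  have h4 : ∀ y, ‖mu ν k y - t y‖ ≤ |∑ y', rho xs k y y' * t' y' - t y| +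
      ‖∑ y', (rho xs k y y' : ℂ) * (mu ν (k + 1) y' - t' y')‖ := by
    intro y
    rw [← Real.norm_eq_abs, ← Complex.norm_real]
    refine le_trans (le_of_eq ?_) (norm_add_le _ _)
    rw [h.rec' hn]
    congr 1
    push_cast
    simp only [mul_sub, Finset.sum_sub_distrib]
    ring
  refine (Finset.sum_le_sum fun y _ => h4 y).trans ?_
  rw [Finset.sum_add_distrib]
  linarith

theorem tracial_of_trL (hc : Continuous ν) (h : ∀ n, TrL n ν) (a b : DD xs) :
    ν (a * b) = ν (b * a) := by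
  have key : ∀ a : DD xs, (∀ k G s, Supp k G → Lev xs k s →
      ν (a * E xs G s) = ν (E xs G s * a)) → ∀ b, ν (a * b) = ν (b * a) := by
    intro a ha b
    have h1 : ν.comp (LinearMap.mulLeft ℂ a) - ν.comp (LinearMap.mulRight ℂ a) = 0 := by
      refine ext_W ?_ fun k G s hG hs => sub_eq_zero.2 (ha k G s hG hs)
      exact (hc.comp (continuous_const.mul continuous_id)).sub
        (hc.comp (continuous_id.mul continuous_const))
    exact sub_eq_zero.1 (LinearMap.congr_fun h1 b)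
  refine key a (fun k G s hG hs => (key (E xs G s) (fun k' G' s' hG' hs' => ?_) a).symm) b
  exact h (max k k') _ _ _ _ (hG.mono (le_max_left _ _)) (hs.mono (le_max_left _ _))
    (hG'.mono (le_max_right _ _)) (hs'.mono (le_max_right _ _))

theorem exists_trace (t : ∀ k, X k → ℝ) (h0 : ∀ k y, 0 ≤ t k y) (h1 : ∀ k, ∑ y, t k y = 1)
    (h2 : ∀ k, ∑ y, |∑ y', rho xs k y y' * t (k + 1) y' - t k y| ≤ 2 * (1 / 2) ^ k) :
    ∃ τ : DD xs →ₗ[ℂ] ℂ, IsTrace τ ∧ ∀ k, ∑ y, ‖mu τ k y - t k y‖ ≤ 4 * (1 / 2) ^ k := by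
  choose φ hφ1 hφ2 hφ3 using fun n => exists_level (xs := xs) n (t n) (h0 n) (h1 n)
  have hest : ∀ n k, k ≤ n → ∑ y, ‖mu (φ n) k y - t k y‖ ≤ 4 * (1 / 2) ^ k := by
    intro n k hk
    induction hk using Nat.decreasingInduction with
    | self => simp only [hφ3, sub_self, norm_zero, Finset.sum_const_zero]; positivity
    | of_succ k hk ih =>
      refine (down (Or.inr ⟨n, hk, hφ2 n⟩) (h2 k) ih).trans (le_of_eq ?_)
      ring
  have hb : ∀ T : DD xs, Tendsto (fun n => φ n T) (hyperfilter ℕ : Filter ℕ)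
      (𝓝 (ulim fun n => φ n T)) :=
    fun T => tendsto_ulim ⟨‖T‖, fun n => ((hφ1 n).sq_le T).2⟩
  let τ : DD xs →ₗ[ℂ] ℂ :=
    { toFun := fun T => ulim fun n => φ n T
      map_add' := fun a b => by
        apply ulim_eq
        simp only [map_add]
        exact (hb a).add (hb b)
      map_smul' := fun c a => by
        apply ulim_eq
        simp only [map_smul, smul_eq_mul, RingHom.id_apply]
        exact (hb a).const_mul c }
  have hτ : ∀ T, Tendsto (fun n => φ n T) (hyperfilter ℕ : Filter ℕ) (𝓝 (τ T)) := hb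
  have hev : ∀ k, ∀ᶠ n in (hyperfilter ℕ : Filter ℕ), k ≤ n := fun k =>
    (eventually_ge_atTop k).filter_mono Nat.hyperfilter_le_atTop
  have hst : IsState τ := by
    constructor
    · have := hτ 1
      simp only [(hφ1 _).1] at this
      exact tendsto_nhds_unique this tendsto_const_nhds
    · intro a
      exact ge_of_tendsto' (hτ _) fun n => (hφ1 n).2 a
  refine ⟨τ, ⟨hst, tracial_of_trL hst.continuous fun k G s G' s' hG hs hG' hs' => ?_⟩, fun k => ?_⟩
  · refine tendsto_nhds_unique_of_eventuallyEq (hτ _) (hτ _) ?_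
    filter_upwards [hev k] with n hn
    exact hφ2 n _ _ _ _ (hG.mono hn) (hs.mono hn) (hG'.mono hn) (hs'.mono hn)
  · refine le_of_tendsto (tendsto_finsetSum _ fun y _ => ((hτ _).sub_const _).norm) ?_
    filter_upwards [hev k] with n hn
    exact hest n k hn

theorem trL_of_trace {σ : DD xs →ₗ[ℂ] ℂ} (hσ : IsTrace σ) (n : ℕ) : TrL n σ :=
  fun _ _ _ _ _ _ _ _ => hσ.2 _ _

theorem trace_unique {σ σ' : DD xs →ₗ[ℂ] ℂ} (hσ : IsTrace σ) (hσ' : IsTrace σ')
    (h : ∀ k, ∑ y, ‖mu σ k y - mu σ' k y‖ ≤ 8 * (1 / 2) ^ k) : σ = σ' := by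
  rw [← sub_eq_zero]
  refine eq_zero_of_mu (hσ.1.continuous.sub hσ'.1.continuous)
    (fun n G s G' s' _ _ _ _ => ?_) ?_
  · simp only [LinearMap.sub_apply]
    rw [hσ.2, hσ'.2]
  · refine squeeze_zero (fun _ => Finset.sum_nonneg fun _ _ => norm_nonneg _) h ?_
    simpa using (tendsto_pow_atTop_nhds_zero_of_lt_one (r := (1 / 2 : ℝ)) (by norm_num)
      (by norm_num)).const_mul 8

theorem mu_real {σ : DD xs →ₗ[ℂ] ℂ} (hσ : IsState σ) (k : ℕ) : ∃ t : X k → ℝ,
    (∀ y, 0 ≤ t y) ∧ ∑ y, t y = 1 ∧ ∀ y, mu σ k y = t y := by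
  have h0 : ∀ y, 0 ≤ mu σ k y := fun y => by
    have := hσ.2 (E xs 0 {F | xs.yy k F = y})
    rwa [E_proj (lev_yy k y)] at this
  have h1 : ∀ y, mu σ k y = ((mu σ k y).re : ℝ) := fun y =>
    Complex.ext rfl (by simpa using (Complex.nonneg_iff.1 (h0 y)).2.symm)
  refine ⟨fun y => (mu σ k y).re, fun y => (Complex.nonneg_iff.1 (h0 y)).1, ?_, h1⟩
  rw [← Complex.re_sum, mu_sum, hσ.1, Complex.one_re]

end Vale.Agent.N070X.Model
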